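import Vale.Agent.P148.R2.H419.Col2

/-!
# P148, row W1: the explored set of world 0 and its exits

`Col` : the comb events and the radial crossings for the composite colouring `s`.
`EK K J` : the explored set; `Ps` : the sites which a path may use to go outside (never left vertices
of the closed strand).
-/

set_option linter.unusedSectionVars false

open Set Relation Metric Function

namespace Vale.Agent.P148.R2.H419

open Vale.Agent.P148.R2.H258 Vale.Agent.P148.R2.H565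
open Vale.Agent.P148.R2.N (ms nc gateC gbox cell csq ms_pos)
open Vale.Agent.P148.R2.H592 (HullTri nbr nbr_symm ConnIn Fc idmap fib_id tail head vc Three comp)
open Vale.Agent.P148.R2.H959 (Jn reg)
open Vale.Agent.P148.R2.H678 (core hub pin pout sd CBox CCr InGood OutGood Tooth Rails Rad inHub
  outHub inRim outRim hbox uo HubsGood Ex mix mB mW EJ D0 oseed rd RD)
open Vale.Agent.P148.R2.H995 (nsup Pieces)

/-- The comb data of one configuration with its composite colouring. -/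
structure Col (M : ℕ) (X : Set ℂ) (b : ZMod 3 → ℂ) (Bl₁ Wh₁ Bl₂ Wh₂ : Set ℂ) (s : ℂ → Bool) :
    Prop where
  hM : 0 < M
  hull : HullTri X b
  cov : X ⊆ Bl₁ ∪ Wh₁
  comb : CombOK M X Bl₁ Wh₁ Bl₂ Wh₂ s
  rad : ∀ k < nc M, Rad M X Wh₂ k
  cB : ∀ z ∈ X, (z ∈ mB M X Bl₁ Wh₁ Bl₂ ↔ s z = true)
  cW : ∀ z ∈ X, (z ∈ mW M X Bl₁ Wh₁ Wh₂ ↔ s z = false)
  far : ∀ j, 1 + 2 * ms M ≤ nsup (b j)

variable {M : ℕ} {X : Set ℂ} {b : ZMod 3 → ℂ} {Bl₁ Wh₁ Bl₂ Wh₂ : Set ℂ} {s : ℂ → Bool}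

/-- The outer core of the gate `k`. -/
def oco (M : ℕ) (X Bl₁ : Set ℂ) (k : ℕ) : Set ℂ := core (nbr X) (X ∩ ball (pout M k) (sd M)) Bl₁

/-- The exits: white, or in an outer core, or in the exterior. -/
def Ps (M : ℕ) (X Bl₁ : Set ℂ) (s : ℂ → Bool) : Set ℂ :=
  {z | z ∈ X ∧ (s z = false ∨ (∃ k, z ∈ oco M X Bl₁ k) ∨ 1 + 5 * ms M / 8 ≤ nsup z)}

/-- The explored set. -/
abbrev EK (M : ℕ) (X Bl₁ Wh₁ Bl₂ Wh₂ : Set ℂ) (K : Set ℕ) (J : Set ℂ) : Set ℂ :=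
  EJ M X K J (mB M X Bl₁ Wh₁ Bl₂) (mW M X Bl₁ Wh₁ Wh₂)

theorem Ps_sub : Ps M X Bl₁ s ⊆ X := fun _ h => h.1

section col

variable (hC : Col M X b Bl₁ Wh₁ Bl₂ Wh₂ s)
include hC

theorem Col.good : HubsGood M X Bl₁ Wh₁ := fun k hk => ⟨hC.comb.inG k hk, hC.comb.outG k hk⟩

theorem Col.rad' (k : ℕ) : Rad M X Wh₂ k := by
  rw [← H678.rad_mod]; exact hC.rad _ (Nat.mod_lt _ (H565.nc_pos M))

theorem Col.rails' (k : ℕ) : Rails M X Bl₂ Wh₂ k := by
  rw [← H678.rails_mod]; exact hC.comb.rails _ (Nat.mod_lt _ (H565.nc_pos M))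

theorem Col.b_reg (k : ℕ) (j : ZMod 3) : b j ∉ reg M k := by
  intro h
  have h1 := (H959.reg_nsup hC.hM h).2
  have h2 := hC.far j
  have h3 := ms_pos hC.hM
  linarith

theorem Col.oco_sub_X (k : ℕ) : oco M X Bl₁ k ⊆ X := fun _ hv =>
  H678.hub_sub_X (C := Bl₁) (H678.core_sub_hub hv)

theorem Col.oco_sub_hub (k : ℕ) : oco M X Bl₁ k ⊆ outHub M X Bl₁ k := H678.core_sub_hub

theorem Col.oco_sub_Ex (k : ℕ) : outHub M X Bl₁ k ⊆ Ex M X Bl₁ Wh₁ := fun _ hv =>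
  mem_iUnion.2 ⟨k, Or.inr hv⟩

/-- The core is closed under black moves. -/
theorem Col.oco_step {k : ℕ} {u v : ℂ} (hu : u ∈ oco M X Bl₁ k) (h : nbr X u v)
    (hv : s v = true) : v ∈ oco M X Bl₁ k := by
  have h1 : v ∈ outHub M X Bl₁ k := H678.hub_step hu h
  have h2 := (hC.cB v h.2.1).2 hv
  rw [H678.mem_mix_of_mem (hC.oco_sub_Ex k h1)] at h2
  exact H678.core_step hu h h2

/-- A site of an outer hub is white or in the core. -/
theorem Col.hub_cases {k : ℕ} {v : ℂ} (hv : v ∈ outHub M X Bl₁ k) :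
    s v = false ∨ v ∈ oco M X Bl₁ k := by
  rcases hv with hv | ⟨u, hu, huv⟩
  · exact Or.inr hv
  · by_cases h : s v = true
    · exact Or.inr (hC.oco_step hu huv h)
    · left; revert h; cases s v <;> simp

theorem Col.hub_sub_X (k : ℕ) : outHub M X Bl₁ k ⊆ X := H678.hub_sub_X

theorem Col.hub_Ps {k : ℕ} {v : ℂ} (hv : v ∈ outHub M X Bl₁ k) : v ∈ Ps M X Bl₁ s := by
  refine ⟨hC.hub_sub_X k hv, ?_⟩
  rcases hC.hub_cases hv with h | h
  · exact Or.inl h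
  · exact Or.inr (Or.inl ⟨k, h⟩)

/-- From an outer hub to the hull. -/
theorem Col.hub_out {k : ℕ} {v : ℂ} (hv : v ∈ outHub M X Bl₁ k) :
    Jn X (Ps M X Bl₁ s) v (b 0) := by
  have hms := ms_pos hC.hM
  obtain ⟨n, w, hn, w1, w2, w3, w4, w5⟩ := hC.good.rad_link hC.hM hC.comb.w2 (hC.rad' k)
  -- in the hub
  have h1 : Jn X (Ps M X Bl₁ s) v (w 0) :=
    H678.joined_mono (fun z hz => hC.hub_Ps hz)
      ((H678.outHub_conn hC.hull.fin k).2 v hv (w 0) w2.1)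
  -- along the radial crossing
  have hw : ∀ i ≤ n, w i ∈ Ps M X Bl₁ s := by
    intro i hi
    rcases Nat.eq_zero_or_pos i with rfl | h0
    · exact hC.hub_Ps w2.1
    · obtain ⟨a1, a2⟩ := w4 i h0 hi
      have a3 : w i ∈ X := hC.comb.w2 a1
      exact ⟨a3, Or.inl ((hC.cW _ a3).1 ((H678.mem_mix_of_not_mem a2).2 a1))⟩
  have h2 : ∀ m ≤ n, Jn X (Ps M X Bl₁ s) (w 0) (w m) := by
    intro m
    induction m with
    | zero => intro _; exact ReflTransGen.refl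
    | succ m ih => intro hm; exact (ih (by omega)).tail ⟨w1 m (by omega), hw m (by omega), hw _ hm⟩
  -- outside
  have hK : Convex ℝ {z : ℂ | nsup z < 1 + 5 * ms M / 8} := H995.convex_nsup_lt _
  have hKo : IsOpen {z : ℂ | nsup z < 1 + 5 * ms M / 8} := H995.isOpen_nsup_lt _
  have h3 : Jn X (X \ {z : ℂ | nsup z < 1 + 5 * ms M / 8}) (w n) (b 0) := by
    refine H959.escape hC.hull hK hKo (fun j hj => ?_) (hw n le_rfl).1 ?_
    · have := hC.far j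
      have h4 : nsup (b j) < 1 + 5 * ms M / 8 := hj
      linarith
    · intro h4
      have h5 : nsup (w n) < 1 + 5 * ms M / 8 := h4
      linarith
  have h4 : Jn X (Ps M X Bl₁ s) (w n) (b 0) := by
    refine h3.mono ?_
    rintro z ⟨hz, hz2⟩
    exact ⟨hz, Or.inr (Or.inr (not_lt.1 hz2))⟩
  exact (h1.trans (h2 n le_rfl)).trans h4

theorem Col.b0_Ps : b 0 ∈ Ps M X Bl₁ s := by
  have hms := ms_pos hC.hM
  have := hC.far 0
  exact ⟨hC.hull.mem 0, Or.inr (Or.inr (by linarith))⟩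

/-- **Exit.** An explored site is joined to the hull by exits. -/
theorem Col.exit {K : Set ℕ} {J : Set ℂ} {v : ℂ} (hv : v ∈ EK M X Bl₁ Wh₁ Bl₂ Wh₂ K J) :
    Jn X (Ps M X Bl₁ s ∪ {v}) v (b 0) := by
  obtain ⟨h0, hh0, hr⟩ := hv
  rw [H678.hub_oseed] at hh0
  obtain ⟨k, hk, hk2⟩ := mem_iUnion₂.1 hh0
  rw [H678.outHub_mix] at hk2
  have key : ∀ u, ReflTransGen (fun a c => a ∈ mW M X Bl₁ Wh₁ Wh₂ ∧ nbr X a c ∧ c ∈ D0 M X \ J)
      h0 u → Jn X (Ps M X Bl₁ s ∪ {u}) u (b 0) := by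
    intro u hu
    induction hu with
    | refl => exact (hC.hub_out hk2).mono subset_union_left
    | @tail p q hp hpq ih =>
      have hpP : p ∈ Ps M X Bl₁ s := ⟨hpq.2.1.1, Or.inl ((hC.cW _ hpq.2.1.1).1 hpq.1)⟩
      have h1 : Jn X (Ps M X Bl₁ s) p (b 0) := ih.mono (union_subset Subset.rfl (by
        rintro z rfl; exact hpP))
      exact (Jn.single (nbr_symm hpq.2.1) (Or.inr rfl) (Or.inl hpP)).trans
        (h1.mono subset_union_left)
  exact key v hr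

/-! ### the closure property -/

/-- The explored set is closed under white moves. -/
theorem Col.clo (x₀ : X) (K : Set ℕ) (J : Set ℂ) :
    Clo (HT hC.hull x₀) (fun v => s v.1) (vs (D0 M X \ J))
      (vs {z | z ∈ EK M X Bl₁ Wh₁ Bl₂ Wh₂ K J ∧ s z = false})
      (vs (EK M X Bl₁ Wh₁ Bl₂ Wh₂ K J)) where
  step g h1 h2 h3 := by
    have hn := HT_nbr hC.hull x₀ g
    exact ⟨H678.EJ_step h1.1 ((hC.cW _ hn.1).2 h1.2) hn h2.1.2 h2.2, h3⟩
  nbr g h1 h2 := by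
    have hn := HT_nbr hC.hull x₀ g
    exact H678.EJ_step h1.1 ((hC.cW _ hn.1).2 h1.2) hn h2.1.2 h2.2
  sub v hv := hv.1

/-! ### feet -/

/-- The hub data. -/
theorem Col.hubs (x₀ : X) : Hubs (HT hC.hull x₀) (fun v => s v.1) true (nc M)
      (fun k => vs (core (nbr X) (X ∩ ball (pin M k) (sd M)) Wh₁))
      (fun k => vs (oco M X Bl₁ k))
      (fun k => vs (csq (pin M k) (ms M / 16))) (fun k => vs (csq (pout M k) (ms M / 16)))
      (fun k => vs (gbox M k)) (fun k => vs (reg M k)) ⟨b 0, hC.hull.mem 0⟩ :=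
  hC.comb.hubs hC.hM hC.hull x₀ (regs_reg hC.hM) hC.b_reg

/-- The feet of the gate `k`. -/
def Foot (h : HullTri X b) (x₀ : X) (M : ℕ) (Bl₁ Wh₁ : Set ℂ) (s : ℂ → Bool) (k : ℕ)
    (d : Fc X b × ZMod 3) : Prop :=
  FootOK (HT h x₀) (fun v => s v.1) true (vs (core (nbr X) (X ∩ ball (pin M k) (sd M)) Wh₁))
    (vs (oco M X Bl₁ k)) (vs (gbox M k)) ⟨b 0, h.mem 0⟩ d

omit hC in
theorem Foot_mod (h : HullTri X b) (x₀ : X) (k : ℕ) :
    Foot h x₀ M Bl₁ Wh₁ s (k % nc M) = Foot h x₀ M Bl₁ Wh₁ s k := by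
  unfold Foot oco
  rw [H995.pin_mod, H995.pout_mod, N.gbox_mod]

theorem Foot.src_hub {x₀ : X} {k : ℕ} {d : Fc X b × ZMod 3}
    (hd : Foot hC.hull x₀ M Bl₁ Wh₁ s k d) :
    (((HT hC.hull x₀).src d : X) : ℂ) ∈ inHub M X Wh₁ k :=
  (mem_hb_core hC.hull x₀).1 (rim_sub_hb hd.1)

theorem Foot.src_black {x₀ : X} {k : ℕ} {d : Fc X b × ZMod 3}
    (hd : Foot hC.hull x₀ M Bl₁ Wh₁ s k d) : s ((HT hC.hull x₀).src d : X) = true :=
  (hC.hubs x₀).colR k _ hd.1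

theorem Foot.src_oco {x₀ : X} {k : ℕ} {d : Fc X b × ZMod 3}
    (hd : Foot hC.hull x₀ M Bl₁ Wh₁ s k d) (j : ℕ) :
    (((HT hC.hull x₀).src d : X) : ℂ) ∉ oco M X Bl₁ j := by
  intro h1
  have h2 := hC.good.inSub k (Foot.src_hub hC hd)
  have h3 := hC.good.outSub j (hC.oco_sub_hub j h1)
  by_cases hkj : k % nc M = j % nc M
  · rw [← H995.pin_mod, hkj, H995.pin_mod] at h2
    exact Set.disjoint_left.1 (H995.hbox_disj hC.hM j) h2 h3
  · rw [← H995.pin_mod] at h2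
    rw [← H995.pout_mod] at h3
    exact Set.disjoint_left.1 (H995.hboxes_disj hC.hM (H678.mod_nc_lt M k) (H678.mod_nc_lt M j) hkj)
      (Or.inl h2) (Or.inr h3)

theorem Foot.src_gbox {x₀ : X} {k : ℕ} {d : Fc X b × ZMod 3}
    (hd : Foot hC.hull x₀ M Bl₁ Wh₁ s k d) : (((HT hC.hull x₀).src d : X) : ℂ) ∈ gbox M k :=
  H995.hbox_pin_sub hC.hM k (hC.good.inSub k (Foot.src_hub hC hd))

/-- The target of the foot of an explored gate is explored. -/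
theorem Foot.tgt_mem {x₀ : X} {k : ℕ} {d : Fc X b × ZMod 3}
    (hd : Foot hC.hull x₀ M Bl₁ Wh₁ s k d) {K : Set ℕ} {J : Set ℂ}
    (hk : outHub M X Bl₁ k ⊆ EK M X Bl₁ Wh₁ Bl₂ Wh₂ K J) (hJ : Disjoint (gbox M k) J) :
    (HT hC.hull x₀).tgt d ∈ vs {z | z ∈ EK M X Bl₁ Wh₁ Bl₂ Wh₂ K J ∧ s z = false} := by
  obtain ⟨-, h2, h3, y, hy, l, hl, hlm⟩ := hd
  have hA : ∀ v : X, v.1 ∈ gbox M k → v ∈ vs (D0 M X \ J) := by
    intro v hv
    refine ⟨⟨v.2, ?_⟩, Set.disjoint_left.1 hJ hv⟩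
    have := (H678.gbox_nsup hC.hM hv).2
    have hms := ms_pos hC.hM
    linarith
  have hyE : y ∈ vs {z | z ∈ EK M X Bl₁ Wh₁ Bl₂ Wh₂ K J ∧ s z = false} :=
    ⟨hk ((mem_hb_core hC.hull x₀).1 (rim_sub_hb hy)), (hC.hubs x₀).colR' k _ hy⟩
  have h4 := (hC.clo x₀ K J).walk hl.reverse hyE (fun g hg => ?_)
  · exact h4.1
  · rw [List.mem_reverse, List.mem_map] at hg
    obtain ⟨g', hg', rfl⟩ := hg
    rw [Tri.tgt_rev]
    rcases H565.walk_src_mem hl g' hg' with h5 | ⟨g'', h6, h7⟩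
    · rw [h5]; exact ⟨hA _ h3, h2⟩
    · rw [← h7]; exact ⟨hA _ (hlm g'' h6).2, (hlm g'' h6).1⟩

end col

end Vale.Agent.P148.R2.H419
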