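import Vale.Agent.P148.R2.H419.Col5

/-!
# P148, row W1: the main class of the closed strand

Every frozen neighbour of a fresh site is the source of a member of the main class.
-/

set_option linter.unusedSectionVars false

open Set Relation Metric Function

namespace Vale.Agent.P148.R2.H419

open Vale.Agent.P148.R2.H258 Vale.Agent.P148.R2.H565
open Vale.Agent.P148.R2.N (ms nc gateC gbox cell csq ms_pos)
open Vale.Agent.P148.R2.H592 (HullTri nbr nbr_symm ConnIn Fc idmap fib_id tail head vc Three comp)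
open Vale.Agent.P148.R2.H959 (Jn reg)
open Vale.Agent.P148.R2.H678 (core hub pin pout sd CBox CCr InGood OutGood Tooth Rails Rad inHub
  outHub inRim outRim hbox uo HubsGood Ex mix mB mW EJ D0 oseed rd RD)
open Vale.Agent.P148.R2.H995 (nsup Pieces)

section left

variable {V D : Type*} {T : Tri V D} {σ : V → Bool}

/-- The left vertices of a strand are joined. -/
theorem left_joined {d : D} (hb : T.Bi σ d) (i : ℕ) :
    H838.Joined T σ (σ (T.src d)) univ (T.src d) (T.src ((T.st σ)^[i] d)) := by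
  refine ⟨mem_univ _, rfl, _, T.lw_walk hb i, fun g hg => ?_⟩
  obtain ⟨j, -, h1, h2⟩ := T.lw_mem hg
  rw [h1, h2, T.col_src_iter σ d j, T.col_src_iter σ d (j + 1)]
  exact ⟨⟨rfl, mem_univ _⟩, ⟨rfl, mem_univ _⟩⟩

end left

variable {M : ℕ} {X : Set ℂ} {b : ZMod 3 → ℂ} {Bl₁ Wh₁ Bl₂ Wh₂ : Set ℂ} {s : ℂ → Bool}

/-- The forward ring and the positively oriented ring of the same feet. -/
structure W1 (hC : Col M X b Bl₁ Wh₁ Bl₂ Wh₂ s) (x₀ : X) (df : ℕ → Fc X b × ZMod 3)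
    (Pf Qf P Q : ℕ → Set X) (γ ρ : ℕ → ℕ) : Prop where
  fw : Rb hC x₀ df Pf Qf (fun k => k) (fun k => k)
  og : Rg hC x₀ (fun k => df (γ k)) P Q γ ρ

theorem Col.exists_W1 (hC : Col M X b Bl₁ Wh₁ Bl₂ Wh₂ s) (x₀ : X) :
    ∃ df Pf Qf P Q γ ρ dir, W1 hC x₀ df Pf Qf P Q γ ρ ∧ Dir (nc M) γ ρ 0 dir := by
  obtain ⟨d, P, Q, h1, P', Q', γ, ρ, dir, h2, h3⟩ := hC.exists_rg x₀
  exact ⟨d, P, Q, P', Q', γ, ρ, dir, ⟨h1, h2⟩, h3⟩

namespace W1

variable {hC : Col M X b Bl₁ Wh₁ Bl₂ Wh₂ s} {x₀ : X} {df : ℕ → Fc X b × ZMod 3}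
  {Pf Qf P Q : ℕ → Set X} {γ ρ : ℕ → ℕ} (h : W1 hC x₀ df Pf Qf P Q γ ρ)
include h

theorem shift (j : ℕ) : W1 hC x₀ df Pf Qf (fun k => P (j + k)) (fun k => Q (j + k))
    (fun k => γ (j + k)) (fun k => ρ (j + k)) := ⟨h.fw, h.og.shift j⟩

/-- The vertices of the black sets are joined to the base foot. -/
theorem P_joined {k : ℕ} {v : X} (hv : v ∈ Pf k) :
    H838.Joined (HT hC.hull x₀) (fun v => s v.1) true univ ((HT hC.hull x₀).src (df (γ 0))) v :=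
  (h.fw.src_joined (γ 0)).symm.trans (h.fw.P_joined hv)

theorem col0 : s ((HT hC.hull x₀).src (df (γ 0)) : X) = true :=
  Foot.src_black hC (h.fw.foot (γ 0))

/-- Left vertices are joined in black to the first foot. -/
theorem left_joined0 (i : ℕ) : H838.Joined (HT hC.hull x₀) (fun v => s v.1) true univ
    ((HT hC.hull x₀).src (df 0))
    ((HT hC.hull x₀).src (((HT hC.hull x₀).st fun v => s v.1)^[i] (df (γ 0)))) := by
  have h1 := left_joined (σ := fun v : X => s v.1) h.og.bi i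
  rw [h.col0] at h1
  exact (h.fw.src_joined (γ 0)).trans h1

/-- **Left vertices of the closed strand are not exits.** -/
theorem left_off (i : ℕ) :
    (((HT hC.hull x₀).src (((HT hC.hull x₀).st fun v => s v.1)^[i] (df (γ 0))) : X) : ℂ) ∉
      Ps M X Bl₁ s := by
  have h1 := h.left_joined0 i
  obtain ⟨k, -, hk, -, -⟩ := (h.og.seen i).2
  rintro ⟨-, h2 | ⟨j, h2⟩ | h2⟩
  · have h3 := h1.right.2
    exact absurd (h2.symm.trans h3) (by decide)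
  · exact h.fw.off_core h1 j h2
  · have := (H959.reg_nsup hC.hM hk).2
    linarith

/-- **The main class.** -/
theorem exists_main {i₀ : ℂ} (hi : i₀ ∈ X) (h0 : nsup i₀ ≤ 1 - ms M / 8) :
    ∃ m₀, (HT hC.hull x₀).Mi (fun v => s v.1)
        (((HT hC.hull x₀).st fun v => s v.1)^[m₀] (df (γ 0))) ∧
      ∀ u v : ℂ, u ∈ I0 M X Bl₁ Wh₁ Bl₂ Wh₂ i₀ → nbr X u v →
        v ∉ I0 M X Bl₁ Wh₁ Bl₂ Wh₂ i₀ →
        ∃ e, (HT hC.hull x₀).Rel (fun v => s v.1)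
            (((HT hC.hull x₀).st fun v => s v.1)^[m₀] (df (γ 0))) e ∧
          (((HT hC.hull x₀).src e : X) : ℂ) = v := by
  have hfin := hC.hull.finite_Fc
  have hms := ms_pos hC.hM
  set T := HT hC.hull x₀ with hT
  set σ : X → Bool := fun v => s v.1 with hσ
  set d := df (γ 0) with hd
  have hPl : T.Planar := HT_planar hC.hull x₀
  have hnl : ∀ f, T.src f ≠ T.tgt f := by
    intro f hf
    exact (HT_nbr hC.hull x₀ f).2.2.1 (congrArg Subtype.val hf)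
  have hsrcE : ∀ i, ((T.src ((T.st σ)^[i] d) : X) : ℂ) ∈ E0 M X Bl₁ Wh₁ Bl₂ Wh₂ :=
    fun i => (h.og.seen i).1.1
  have hz : ∀ n, T.src ((T.st σ)^[n] d) ≠ (⟨i₀, hi⟩ : X) ∧
      T.tgt ((T.st σ)^[n] d) ≠ (⟨i₀, hi⟩ : X) ∧ T.apex ((T.st σ)^[n] d) ≠ (⟨i₀, hi⟩ : X) := by
    intro n
    obtain ⟨k, -, a1, a2, a3⟩ := (h.og.seen n).2
    have key : ∀ v : X, v ∈ (vs (reg M (ρ k)) : Set X) → v ≠ ⟨i₀, hi⟩ := by
      rintro v hv rfl
      have := (H959.reg_nsup hC.hM hv).1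
      simp only at this
      linarith
    exact ⟨key _ a1, key _ a2, key _ a3⟩
  have htw : s ((T.tgt d : X) : ℂ) = false := (h.fw.foot (γ 0)).2.1
  have h₁ : ∃ l, T.Walk (T.tgt d) ⟨b 0, hC.hull.mem 0⟩ l ∧ ∀ g ∈ l,
      T.tgt g ∉ {v : X | ∃ k, v ∈ Pf k} ∧ ∀ i, T.src ((T.st σ)^[i] d) ≠ T.tgt g := by
    have h2 := hC.exit (h.og.seen 0).1.2
    rw [iterate_zero, id_eq] at h2
    obtain ⟨l, h3, h4⟩ := HT_walk hC.hull x₀ (y := ⟨b 0, hC.hull.mem 0⟩) h2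
    refine ⟨l, h3, fun g hg => ?_⟩
    have h5 : ((T.tgt g : X) : ℂ) ∈ Ps M X Bl₁ s := by
      rcases (h4 g hg).2 with h6 | h6
      · exact h6
      · have h7 : ((T.tgt g : X) : ℂ) = ((T.tgt d : X) : ℂ) := h6
        rw [h7]
        exact ⟨(T.tgt d).2, Or.inl htw⟩
    refine ⟨?_, fun i hi2 => ?_⟩
    · rintro ⟨k, hk⟩
      exact h.fw.P_off hk h5
    · rw [← hi2] at h5
      exact h.left_off i h5
  have hS : ∀ x ∈ {v : X | ∃ k, v ∈ Pf k}, ∃ l, T.Walk (T.src d) x l ∧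
      ∀ g ∈ l, σ (T.tgt g) = σ (T.src d) := by
    rintro x ⟨k, hk⟩
    obtain ⟨-, -, l, hl, hlc⟩ := h.P_joined hk
    refine ⟨l, hl, fun g hg => ?_⟩
    have h2 : σ (T.src d) = true := h.col0
    rw [h2]
    exact (hlc g hg).2.1
  have hex : ∃ l, T.Walk (⟨i₀, hi⟩ : X) ⟨b 0, hC.hull.mem 0⟩ l := by
    obtain ⟨l, hl, -⟩ := HT_escape hC.hull x₀ (K := ∅) convex_empty isOpen_empty (by simp)
      ⟨i₀, hi⟩ (by intro h; exact h)
    exact ⟨l, hl⟩
  have hsep : ∀ l, T.Walk (⟨i₀, hi⟩ : X) ⟨b 0, hC.hull.mem 0⟩ l →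
      (⟨i₀, hi⟩ : X) ∈ {v : X | ∃ k, v ∈ Pf k} ∨ ∃ g ∈ l, T.tgt g ∈ {v : X | ∃ k, v ∈ Pf k} := by
    intro l hl
    obtain ⟨m, u, u0, u1, u2, u3⟩ := HT_seq hC.hull x₀ hl
    obtain ⟨i, hi3, k, v, hv, h5⟩ := ring_meets hC.hull x₀ hC.hM h.fw.ring.pc
      (p := fun k => T.src (df k)) h.fw.ring.s1 h.fw.ring.s2
      (by have := h.fw.ring.dper 0; rw [zero_add] at this; rw [this])
      (fun k => Foot.src_gbox hC (h.fw.foot k)) (fun k v hv => h.fw.ring.subP k hv) u2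
      (by rw [u0]; exact h0) (by rw [u1]; have := hC.far 0; simp only; linarith)
    rcases u3 i hi3 with h6 | ⟨g, hg, h6⟩
    · left
      refine ⟨k, ?_⟩
      have : (⟨i₀, hi⟩ : X) = v := Subtype.ext (h6.symm.trans h5.symm)
      rw [this]; exact hv
    · right
      refine ⟨g, hg, k, ?_⟩
      have : T.tgt g = v := Subtype.ext (h6.trans h5.symm)
      rw [this]; exact hv
  obtain ⟨o, hmi, ⟨n, hn⟩, hmain⟩ := H871.exists_main_of_sep hPl hnl h.og.bi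
    (hC.exists_dart x₀ _) (hC.exists_dart x₀ _) hz hS h₁ hex hsep
  subst hn
  refine ⟨n, hmi, ?_⟩
  intro u v hu huv hv
  have hvE : v ∈ E0 M X Bl₁ Wh₁ Bl₂ Wh₂ := (H592.nbr_comp hu huv).resolve_left hv
  obtain ⟨l1, w1, w1'⟩ := HT_walk hC.hull x₀ (x := ⟨i₀, hi⟩) (y := ⟨u, huv.1⟩)
    (Y := X \ E0 M X Bl₁ Wh₁ Bl₂ Wh₂) hu.2
  obtain ⟨g1, g1s, g1t⟩ := HT_dart hC.hull x₀ (x := ⟨u, huv.1⟩) (y := ⟨v, huv.2.1⟩) huv
  obtain ⟨l2, w2, w2'⟩ := HT_walk hC.hull x₀ (x := ⟨v, huv.2.1⟩) (y := ⟨b 0, hC.hull.mem 0⟩)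
    (hC.exit hvE)
  have w3 : T.Walk (⟨i₀, hi⟩ : X) ⟨b 0, hC.hull.mem 0⟩ (l1 ++ (g1 :: l2)) := by
    refine w1.append (Tri.Walk.cons' g1 g1s ?_)
    rw [g1t]; exact w2
  obtain ⟨e, he, he2⟩ := hmain _ w3
  have heq : ∃ i, (T.st σ)^[i] d = e := by
    obtain ⟨-, -, k, -, hk, -⟩ := he
    exact ⟨k + n, by rw [iterate_add_apply]; exact hk⟩
  obtain ⟨i, hi4⟩ := heq
  have heE : ((T.src e : X) : ℂ) ∈ E0 M X Bl₁ Wh₁ Bl₂ Wh₂ := by rw [← hi4]; exact hsrcE i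
  have heP : ((T.src e : X) : ℂ) ∉ Ps M X Bl₁ s := by rw [← hi4]; exact h.left_off i
  refine ⟨e, he, ?_⟩
  rcases he2 with h8 | ⟨g, hg, h8⟩
  · exfalso
    rw [h8] at heE
    have := h.fw.E0_nsup heE
    simp only at this
    linarith
  · rcases List.mem_append.1 hg with h9 | h9
    · exfalso
      have := (w1' g h9).2
      rw [h8] at this
      exact this.2 heE
    · rcases List.mem_cons.1 h9 with h10 | h10
      · rw [← h8, h10, g1t]
      · rcases (w2' g h10).2 with h11 | h11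
        · rw [h8] at h11
          exact absurd h11 heP
        · rw [h8] at h11
          exact h11

end W1

end Vale.Agent.P148.R2.H419
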