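import Vale.Agent.P148.R2.H419.Col4

/-!
# P148, row W1: position of the explored set and of the fresh region

`E0` : the explored set of world 0; `I0` : the fresh region (component of the centre).
-/

set_option linter.unusedSectionVars false

open Set Relation Metric Function

namespace Vale.Agent.P148.R2.H419

open Vale.Agent.P148.R2.H258 Vale.Agent.P148.R2.H565
open Vale.Agent.P148.R2.N (ms nc gateC gbox cell csq ms_pos)
open Vale.Agent.P148.R2.H592 (HullTri nbr nbr_symm ConnIn Fc idmap fib_id tail head vc Three comp)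
open Vale.Agent.P148.R2.H959 (Jn reg)
open Vale.Agent.P148.R2.H678 (core hub pin pout sd CBox CCr InGood OutGood Tooth Rails Rad inHub
  outHub inRim outRim hbox uo HubsGood Ex mix mB mW EJ D0 oseed rd RD)
open Vale.Agent.P148.R2.H995 (nsup Pieces)

variable {M : ℕ} {X : Set ℂ} {b : ZMod 3 → ℂ} {Bl₁ Wh₁ Bl₂ Wh₂ : Set ℂ} {s : ℂ → Bool}

/-- The explored set of world 0. -/
abbrev E0 (M : ℕ) (X Bl₁ Wh₁ Bl₂ Wh₂ : Set ℂ) : Set ℂ := EK M X Bl₁ Wh₁ Bl₂ Wh₂ univ ∅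

/-- The fresh region of world 0. -/
abbrev I0 (M : ℕ) (X Bl₁ Wh₁ Bl₂ Wh₂ : Set ℂ) (i₀ : ℂ) : Set ℂ :=
  comp X (X \ E0 M X Bl₁ Wh₁ Bl₂ Wh₂) i₀

theorem EK_sub_E0 (K : Set ℕ) (J : Set ℂ) :
    EK M X Bl₁ Wh₁ Bl₂ Wh₂ K J ⊆ E0 M X Bl₁ Wh₁ Bl₂ Wh₂ :=
  H678.EJ_anti (subset_univ K) (empty_subset J)

/-- A joined pair as a sequence. -/
theorem jn_seq {Y : Set ℂ} {x y : ℂ} (h : Jn X Y x y) :
    ∃ (m : ℕ) (u : ℕ → ℂ), u 0 = x ∧ u m = y ∧ (∀ i < m, nbr X (u i) (u (i + 1))) ∧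
      ∀ i ≤ m, u i = x ∨ u i ∈ Y := by
  induction h with
  | refl => exact ⟨0, fun _ => x, rfl, rfl, fun i hi => by omega, fun _ _ => Or.inl rfl⟩
  | @tail p q _ hpq ih =>
    obtain ⟨m, u, h0, h1, h2, h3⟩ := ih
    refine ⟨m + 1, fun i => if i ≤ m then u i else q, by simp [h0], by simp, ?_, ?_⟩
    · intro i hi
      rcases Nat.lt_or_ge i m with h4 | h4
      · have h5 : i + 1 ≤ m := h4
        simp only [show i ≤ m from h4.le, h5, if_true]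
        exact h2 i h4
      · have h5 : i = m := by omega
        subst h5
        simp only [le_refl, if_true, show ¬ (i + 1 ≤ i) by omega, if_false]
        rw [h1]; exact hpq.1
    · intro i hi
      rcases Nat.lt_or_ge m i with h4 | h4
      · simp only [show ¬ (i ≤ m) by omega, if_false]
        exact Or.inr hpq.2.2
      · simp only [h4, if_true]
        exact h3 i h4

section col

variable (hC : Col M X b Bl₁ Wh₁ Bl₂ Wh₂ s)
include hC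

theorem Col.oseed_eq : oseed M X (Icc 0 (nc M)) = oseed M X univ := by
  unfold oseed
  apply Subset.antisymm
  · exact biUnion_subset_biUnion_left (subset_univ _)
  · intro z hz
    obtain ⟨k, -, hk⟩ := mem_iUnion₂.1 hz
    refine mem_biUnion (x := k % nc M) ⟨Nat.zero_le _, (Nat.mod_lt _ (H565.nc_pos M)).le⟩ ?_
    rw [H995.pout_mod]; exact hk

theorem Col.conn_E0 : ConnIn X (E0 M X Bl₁ Wh₁ Bl₂ Wh₂) := by
  have h1 := H678.EJ_conn hC.hM hC.cov hC.comb.w2 hC.good (J := ∅) hC.hull.fin (a := 0)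
    (b := nc M) (fun k _ _ => hC.rails' k) (fun k _ _ => disjoint_empty _)
  unfold EJ at h1
  rw [hC.oseed_eq] at h1
  exact h1

theorem Col.E0_white {z : ℂ} (hz : z ∈ X) : z ∈ mW M X Bl₁ Wh₁ Wh₂ ↔ s z = false := hC.cW z hz

/-- Frozen neighbours of fresh sites are explored and black. -/
theorem Col.bdry {i₀ u v : ℂ} (hu : u ∈ I0 M X Bl₁ Wh₁ Bl₂ Wh₂ i₀) (h : nbr X u v)
    (hv : v ∉ I0 M X Bl₁ Wh₁ Bl₂ Wh₂ i₀) (hu2 : nsup u < 1 + 2 * ms M) :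
    v ∈ E0 M X Bl₁ Wh₁ Bl₂ Wh₂ ∧ s v = true := by
  have h1 := (H592.nbr_comp hu h).resolve_left hv
  refine ⟨h1, ?_⟩
  by_contra hc
  have hw : s v = false := by revert hc; cases s v <;> simp
  exact (H592.comp_subset _ _ _ hu).2
    (H678.EJ_step h1 ((hC.cW v h.2.1).2 hw) (nbr_symm h) hu2 (by simp))

end col

namespace Rb

variable {hC : Col M X b Bl₁ Wh₁ Bl₂ Wh₂ s} {x₀ : X} {d : ℕ → Fc X b × ZMod 3}
  {P Q : ℕ → Set X}

/-- **The explored set is outside the black ring.** -/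
theorem E0_nsup (hr : Rb hC x₀ d P Q (fun k => k) (fun k => k)) {z : ℂ}
    (hz : z ∈ E0 M X Bl₁ Wh₁ Bl₂ Wh₂) : 1 - ms M / 8 < nsup z := by
  by_contra hc
  push Not at hc
  obtain ⟨m, u, u0, u1, u2, u3⟩ := jn_seq (hC.exit hz)
  have hms := ms_pos hC.hM
  obtain ⟨i, hi, k, v, hv, h5⟩ := ring_meets hC.hull x₀ hC.hM hr.ring.pc
    (p := fun k => (HT hC.hull x₀).src (d k)) hr.ring.s1 hr.ring.s2
    (by have := hr.ring.dper 0; rw [zero_add] at this; rw [this])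
    (fun k => Foot.src_gbox hC (hr.foot k)) (fun k v hv => hr.ring.subP k hv) u2
    (by rw [u0]; exact hc) (by rw [u1]; have := hC.far 0; linarith)
  have h6 : v.1 ∉ Ps M X Bl₁ s := hr.P_off hv
  have h7 : v.1 ≠ z := by
    intro h8
    have h9 := (H959.reg_nsup hC.hM (hr.ring.subP k hv)).1
    rw [h8] at h9
    linarith
  rw [h5] at h6 h7
  rcases u3 i hi with h8 | h8 | h8
  · exact h7 h8
  · exact h6 h8
  · exact h7 h8

theorem tgt_gbox {γ ρ : ℕ → ℕ} (hr : Rb hC x₀ d P Q γ ρ) (k : ℕ) :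
    (((HT hC.hull x₀).tgt (d k) : X) : ℂ) ∈ gbox M (γ k) := (hr.foot k).2.2.1

/-- **The fresh region is inside the white ring.** -/
theorem I0_nsup (hr : Rb hC x₀ d P Q (fun k => k) (fun k => k)) {i₀ : ℂ}
    (h0 : nsup i₀ ≤ 1 - ms M / 8) {z : ℂ} (hz : z ∈ I0 M X Bl₁ Wh₁ Bl₂ Wh₂ i₀) :
    nsup z < 1 + 5 * ms M / 8 := by
  by_contra hc
  push Not at hc
  obtain ⟨m, u, u0, u1, u2, u3⟩ := jn_seq (X := X) (Y := X \ E0 M X Bl₁ Wh₁ Bl₂ Wh₂) hz.2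
  obtain ⟨i, hi, k, v, hv, h5⟩ := ring_meets hC.hull x₀ hC.hM hr.ring.qc
    (p := fun k => (HT hC.hull x₀).tgt (d k)) hr.ring.t1 hr.ring.t2
    (by have := hr.ring.dper 0; rw [zero_add] at this; rw [this])
    (fun k => hr.tgt_gbox k) (fun k v hv => hr.ring.subQ k hv) u2
    (by rw [u0]; exact h0) (by rw [u1]; exact hc)
  have h6 := hr.Q_sub hv
  have h7 : v.1 ≠ i₀ := by
    intro h8
    have h9 := (H959.reg_nsup hC.hM (hr.ring.subQ k hv)).1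
    rw [h8] at h9
    linarith
  rw [h5] at h6 h7
  rcases u3 i hi with h8 | h8
  · exact h7 h8
  · exact h8.2 h6

theorem E0_nonempty {γ ρ : ℕ → ℕ} (hr : Rb hC x₀ d P Q γ ρ) :
    (E0 M X Bl₁ Wh₁ Bl₂ Wh₂).Nonempty := ⟨_, hr.Q_sub (hr.ring.t1 0)⟩

/-- The frozen set is connected. -/
theorem conn_B {γ ρ : ℕ → ℕ} (hr : Rb hC x₀ d P Q γ ρ) (i₀ : ℂ) :
    ConnIn X (X \ I0 M X Bl₁ Wh₁ Bl₂ Wh₂ i₀) :=
  H592.connIn_compl_comp hC.hull.fin hC.conn_E0 hr.E0_nonempty i₀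

theorem E0_sub_B (i₀ : ℂ) : E0 M X Bl₁ Wh₁ Bl₂ Wh₂ ⊆ X \ I0 M X Bl₁ Wh₁ Bl₂ Wh₂ i₀ :=
  fun _ hz => ⟨H678.EJ_sub_X hz, fun h => (H592.comp_subset _ _ _ h).2 hz⟩

/-- A disc inside the black ring is fresh. -/
theorem ball_sub (hr : Rb hC x₀ d P Q (fun k => k) (fun k => k)) {r : ℝ} (hr1 : r ≤ 1 - ms M / 8)
    {i₀ : ℂ} (hi : i₀ ∈ X ∩ ball 0 r) : X ∩ ball 0 r ⊆ I0 M X Bl₁ Wh₁ Bl₂ Wh₂ i₀ := by
  have h1 : X ∩ ball 0 r ⊆ X \ E0 M X Bl₁ Wh₁ Bl₂ Wh₂ := by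
    rintro z ⟨hz, hz2⟩
    refine ⟨hz, fun hE => ?_⟩
    have h3 := hr.E0_nsup hE
    have h4 : ‖z‖ < r := by simpa using hz2
    have h5 : nsup z ≤ ‖z‖ := max_le (Complex.abs_re_le_norm z) (Complex.abs_im_le_norm z)
    linarith
  exact (H592.connIn_ball hC.hull.fin 0 r).subset_comp h1 hi (H592.mem_comp_self (h1 hi))

end Rb

/-! ### the closed strand sees explored sites only -/

section strand

variable {V D : Type*} {T : Tri V D} {σ : V → Bool} {K : ℕ} {d : ℕ → D} {R : ℕ → Set V}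
  {t : ℕ → ℕ}

theorem Loop.all (h : Loop T σ K d R t) [Finite D] (i : ℕ) : ∃ k < K,
    T.src ((T.st σ)^[i] (d 0)) ∈ R k ∧ T.tgt ((T.st σ)^[i] (d 0)) ∈ R k ∧
      T.apex ((T.st σ)^[i] (d 0)) ∈ R k := by
  have h1 : (T.st σ)^[i % minimalPeriod (T.st σ) (d 0)] (d 0) = (T.st σ)^[i] (d 0) :=
    iterate_mod_minimalPeriod_eq
  have h2 : 0 < minimalPeriod (T.st σ) (d 0) := T.pos_period σ (d 0)
  have h3 : i % minimalPeriod (T.st σ) (d 0) < t K := by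
    rw [h.per]; exact Nat.mod_lt _ h2
  obtain ⟨k, hk, h4, h5⟩ := h.piece le_rfl h3
  have h6 := h.seen k hk _ h4 h5
  rw [h1] at h6
  exact ⟨k, hk, h6⟩

theorem Loop.hug_all (h : Loop T σ K d R t) [Finite D] {A Wc E : Set V} (hC : Clo T σ A Wc E)
    (hw : σ (T.tgt (d 0)) = false) (h0 : T.tgt (d 0) ∈ Wc)
    (h0' : T.src (d 0) ∈ A ∧ T.tgt (d 0) ∈ A) (hA : ∀ k < K, R k ⊆ A) (i : ℕ) :
    T.tgt ((T.st σ)^[i] (d 0)) ∈ Wc ∧ T.src ((T.st σ)^[i] (d 0)) ∈ E ∧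
      H838.Joined T σ false Wc (T.tgt (d 0)) (T.tgt ((T.st σ)^[i] (d 0))) := by
  have h1 : (T.st σ)^[i % minimalPeriod (T.st σ) (d 0)] (d 0) = (T.st σ)^[i] (d 0) :=
    iterate_mod_minimalPeriod_eq
  have h2 : 0 < minimalPeriod (T.st σ) (d 0) := T.pos_period σ (d 0)
  have h3 : i % minimalPeriod (T.st σ) (d 0) ≤ t K := by
    rw [h.per]; exact (Nat.mod_lt _ h2).le
  have h4 := h.hug hC hw (m := 0) (Nat.zero_le K) h0 h0' (fun k _ hk => hA k hk)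
    (i := i % minimalPeriod (T.st σ) (d 0)) (by rw [h.t0]; exact Nat.zero_le _) h3
  rw [h1] at h4
  exact h4

end strand

namespace Rg

variable {hC : Col M X b Bl₁ Wh₁ Bl₂ Wh₂ s} {x₀ : X} {d : ℕ → Fc X b × ZMod 3}
  {P Q : ℕ → Set X} {γ ρ : ℕ → ℕ} (hr : Rg hC x₀ d P Q γ ρ)
include hr

theorem bi : (HT hC.hull x₀).Bi (fun v => s v.1) (d 0) := by
  obtain ⟨t, ht⟩ := hr.loop
  exact ht.bi

theorem reg_D0 (k : ℕ) : (vs (reg M (ρ k)) : Set X) ⊆ vs (D0 M X \ ∅) := by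
  intro v hv
  have := (H959.reg_nsup hC.hM hv).2
  have hms := ms_pos hC.hM
  exact ⟨⟨v.2, by linarith⟩, by simp⟩

/-- **Everything the closed strand sees is explored**, and is in the regions. -/
theorem seen (i : ℕ) :
    ((((HT hC.hull x₀).src (((HT hC.hull x₀).st fun v => s v.1)^[i] (d 0)) : X) : ℂ) ∈
        E0 M X Bl₁ Wh₁ Bl₂ Wh₂ ∧
      (((HT hC.hull x₀).tgt (((HT hC.hull x₀).st fun v => s v.1)^[i] (d 0)) : X) : ℂ) ∈
        E0 M X Bl₁ Wh₁ Bl₂ Wh₂) ∧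
    ∃ k < nc M,
      (HT hC.hull x₀).src (((HT hC.hull x₀).st fun v => s v.1)^[i] (d 0)) ∈ vs (reg M (ρ k)) ∧
      (HT hC.hull x₀).tgt (((HT hC.hull x₀).st fun v => s v.1)^[i] (d 0)) ∈ vs (reg M (ρ k)) ∧
      (HT hC.hull x₀).apex (((HT hC.hull x₀).st fun v => s v.1)^[i] (d 0)) ∈ vs (reg M (ρ k)) := by
  have hfin := hC.hull.finite_Fc
  obtain ⟨t, ht⟩ := hr.loop
  have h1 := Foot.tgt_mem hC (hr.foot 0) (K := univ) (J := ∅) (Bl₂ := Bl₂) (Wh₂ := Wh₂) (by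
    have := H678.outHub_sub_EJ (M := M) (X := X) (Bl := mB M X Bl₁ Wh₁ Bl₂)
      (Wh := mW M X Bl₁ Wh₁ Wh₂) (K := univ) (J := ∅) (k := γ 0) (mem_univ _)
    rwa [H678.outHub_mix] at this) (disjoint_empty _)
  have h2 := ht.hug_all (hC.clo x₀ univ ∅) h1.2 h1
    ⟨hr.reg_D0 0 (hr.ring.subP 0 (hr.ring.s1 0)), hr.reg_D0 0 (hr.ring.subQ 0 (hr.ring.t1 0))⟩
    (fun k _ => hr.reg_D0 k) i
  exact ⟨⟨h2.2.1, h2.1.1⟩, ht.all i⟩

end Rg

end Vale.Agent.P148.R2.H419
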