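import Vale.Agent.P148.R2.H419.Col7
import Vale.Agent.P148.R2.H172.Sc2
import Vale.Agent.P148.R2.H400.Flip10
import Vale.Agent.P148.R2.H112.Seg
import Vale.Agent.P148.R2.H504.Far
import Vale.Agent.P148.R2.H565.Mc2

/-!
# P148, row W1: frames and explored sets

`frame_far` : between the feet of the gates `m < m'` of a frame, in regions off `J`, with the gate `m`
explored, the left vertices are explored, the right ones are explored, white and joined in white
to the foot of the gate `m`.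
`seen_EK` : one piece.
`door_data` : `H400.DoorData` for one arc.
-/

set_option linter.unusedSectionVars false

open Set Relation Metric Function

namespace Vale.Agent.P148.R2.H419

open Vale.Agent.P148.R2.H258 Vale.Agent.P148.R2.H565
open Vale.Agent.P148.R2.N (ms nc gateC gbox cell cellC csq ms_pos)
open Vale.Agent.P148.R2.H592 (HullTri nbr nbr_symm ConnIn Fc idmap fib_id tail head vc Three comp)
open Vale.Agent.P148.R2.H959 (Jn reg)
open Vale.Agent.P148.R2.H678 (core hub pin pout sd CBox CCr InGood OutGood Tooth Rails Rad inHub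
  outHub inRim outRim hbox uo HubsGood Ex mix mB mW EJ D0 oseed rd RD)
open Vale.Agent.P148.R2.H995 (nsup Pieces)
open Vale.Agent.P148.R2.H566 (W0)
open Vale.Agent.P148.R2.H609 (TP piX)
open Vale.Agent.P148.R2.H172 (Frame)

/-! ### indices -/

theorem reg_mod (M k : ℕ) : reg M (k % nc M) = reg M k :=
  per_of_add (f := reg M) (fun k => H959.reg_add_nc M k) k

theorem eq_of_mod {n a b g : ℕ} (h : a % n = b % n) (ha : g ≤ a) (ha' : a < g + n) (hb : g ≤ b)
    (hb' : b < g + n) : a = b := by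
  refine Nat.ModEq.eq_of_abs_lt (m := n) h ?_
  rw [abs_lt]
  omega

/-- The regions off the door cell. -/
theorem reg_off {M s k : ℕ} (hM : 0 < M) (hs0 : 1 ≤ s) (hs : s < nc M)
    (hs' : s % (2 * M + 1) < 2 * M) (h1 : s + 2 ≤ k) (h2 : k + 1 < s + nc M) :
    Disjoint (reg M k) (cell M s) := by
  rw [← reg_mod]
  have hk : k % nc M < nc M := Nat.mod_lt _ (H565.nc_pos M)
  have h12 : 12 ≤ nc M := by unfold nc; omega
  have hcase : k % nc M = k ∨ (nc M ≤ k ∧ k % nc M = k - nc M) := by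
    rcases Nat.lt_or_ge k (nc M) with h | h
    · exact Or.inl (Nat.mod_eq_of_lt h)
    · right
      refine ⟨h, ?_⟩
      rw [Nat.mod_eq_sub_mod h, Nat.mod_eq_of_lt (by omega)]
  refine H995.reg_cell_disj hM hk hs hs' (by omega) (by omega) ?_
  rcases hcase with h | ⟨h3, h⟩
  · rw [h]
    rcases Nat.lt_or_ge (k + 1) (nc M) with h4 | h4
    · rw [Nat.mod_eq_of_lt h4]; omega
    · have h5 : k + 1 = nc M := by omega
      rw [h5, Nat.mod_self]; omega
  · rw [h, Nat.mod_eq_of_lt (by omega)]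
    omega

/-- A region which meets the ball of radius `ms M` round the centre of the cell `s` is at most three
pieces away. -/
theorem reg_near {M s g k : ℕ} (hM : 0 < M) (hs : s < nc M) (hg : g + 3 ≤ s)
    (hsg : s + 4 ≤ g + nc M) (hk : g ≤ k) (hk' : k < g + nc M) {v : ℂ} (hv : v ∈ reg M k)
    (hv' : v ∈ ball (cellC M s) (ms M)) : k ≤ s + 3 ∧ s ≤ k + 3 := by
  have hms := ms_pos hM
  have hkn : k % nc M < nc M := Nat.mod_lt _ (H565.nc_pos M)
  have h1 : v ∈ csq (cellC M (k % nc M)) (5 * ms M / 8) := by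
    rw [← reg_mod] at hv
    exact H959.reg_subset_csq hM _ hv
  have h2 : v ∈ csq (cellC M s) (ms M) := by
    rw [N.mem_csq]
    rw [mem_ball, Complex.dist_eq] at hv'
    have a1 := Complex.abs_re_le_norm (v - cellC M s)
    have a2 := Complex.abs_im_le_norm (v - cellC M s)
    rw [Complex.sub_re] at a1
    rw [Complex.sub_im] at a2
    exact ⟨by linarith, by linarith⟩
  have h3 : k % nc M ∈ H504.near (nc M) 3 s := by
    by_contra hc
    have h4 := H504.disjoint_csq hM hs hkn hc (R := ms M) (R' := 5 * ms M / 8) (by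
      push_cast; linarith)
    exact Set.disjoint_left.1 h4 h2 h1
  unfold H504.near at h3
  rw [Finset.mem_filter] at h3
  obtain ⟨-, t, ht, h4 | h4⟩ := h3
  · have h5 : s + t = k := eq_of_mod (n := nc M) (g := g) h4 (by omega) (by omega) hk hk'
    omega
  · have h5 : (k + t) % nc M = s % nc M := by
      rw [Nat.mod_eq_of_lt hs, ← h4, Nat.mod_add_mod]
    rcases Nat.lt_or_ge (k + t) (g + nc M) with h6 | h6
    · have h7 : k + t = s := eq_of_mod (n := nc M) (g := g) h5 (by omega) h6 (by omega) (by omega)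
      omega
    · exfalso
      have h7 : k + t - nc M = s := by
        refine eq_of_mod (n := nc M) (g := g) ?_ (by omega) (by omega) (by omega) (by omega)
        rw [← h5, ← Nat.add_mod_right (k + t - nc M) (nc M), Nat.sub_add_cancel (by omega)]
      omega

/-! ### frames -/

section frame

variable {M : ℕ} {w : W0} {x₀ : w.X} {Bl₁ Wh₁ Bl₂ Wh₂ : Set ℂ} {s : ℂ → Bool} {col : w.X → Bool}
  (hC : Col M w.X w.b Bl₁ Wh₁ Bl₂ Wh₂ s) (hcol : ∀ v : w.X, s v.1 = col v)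
  (F : Frame M w x₀ col)

include hcol in
theorem blk_eq : H172.blk col = {z | z ∈ w.X ∧ s z = true} := by
  ext z
  constructor
  · rintro ⟨h, h1⟩
    exact ⟨h, by rw [← h1]; exact hcol ⟨z, h⟩⟩
  · rintro ⟨h, h1⟩
    exact ⟨h, by rw [← hcol ⟨z, h⟩]; exact h1⟩

include hC hcol

/-- The feet of a frame. -/
theorem frame_foot {K : Set ℕ} {J : Set ℂ} {k : ℕ} (hk : ∃ j ∈ K, j % nc M = k % nc M)
    (hJ : Disjoint (gbox M k) J) :
    ((TP w x₀).tgt (((TP w x₀).st col)^[F.t k] F.o)).1 ∈ EK M w.X Bl₁ Wh₁ Bl₂ Wh₂ K J ∧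
    s ((TP w x₀).tgt (((TP w x₀).st col)^[F.t k] F.o)).1 = false ∧
    ((TP w x₀).src (((TP w x₀).st col)^[F.t k] F.o)).1 ∈ gbox M k ∧
    ((TP w x₀).tgt (((TP w x₀).st col)^[F.t k] F.o)).1 ∈ gbox M k := by
  have h1 := F.foot k
  rw [blk_eq hcol] at h1
  exact hC.tgt_foot h1 (hC.hub_sub hk J) hJ

/-- The colours along the strand of a frame. -/
theorem frame_col (i : ℕ) :
    s ((TP w x₀).src (((TP w x₀).st col)^[i] F.o)).1 = true ∧
    s ((TP w x₀).tgt (((TP w x₀).st col)^[i] F.o)).1 = false := by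
  have h1 := (frame_foot hC hcol F (K := univ) (J := ∅) (k := 0) ⟨0, mem_univ _, rfl⟩
    (disjoint_empty _)).2.1
  rw [hcol, (TP w x₀).col_tgt_iter col F.o] at h1
  have h2 : (TP w x₀).Bi col F.o := F.lt.bi
  have h3 : col ((TP w x₀).src F.o) = true := by
    unfold Tri.Bi at h2
    rw [h1] at h2
    revert h2; cases col ((TP w x₀).src F.o) <;> simp
  rw [hcol, hcol, (TP w x₀).col_tgt_iter col F.o, (TP w x₀).col_src_iter col F.o]
  exact ⟨h3, h1⟩

/-- **Far pieces of a frame.** -/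
theorem frame_far {K : Set ℕ} {J : Set ℂ} {m m' : ℕ} (hmm : m < m')
    (hK : ∃ j ∈ K, j % nc M = m % nc M)
    (hJ : ∀ k, m ≤ k → k < m' → Disjoint (reg M k) J) {i : ℕ} (hi : F.t m ≤ i)
    (hi' : i ≤ F.t m') :
    ((TP w x₀).src (((TP w x₀).st col)^[i] F.o)).1 ∈ EK M w.X Bl₁ Wh₁ Bl₂ Wh₂ K J ∧
    ((TP w x₀).tgt (((TP w x₀).st col)^[i] F.o)).1 ∈ EK M w.X Bl₁ Wh₁ Bl₂ Wh₂ K J ∧
    H838.Joined (TP w x₀) col false
      {v | v.1 ∈ EK M w.X Bl₁ Wh₁ Bl₂ Wh₂ K J ∧ s v.1 = false}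
      ((TP w x₀).tgt (((TP w x₀).st col)^[F.t m] F.o))
      ((TP w x₀).tgt (((TP w x₀).st col)^[i] F.o)) := by
  obtain rfl : (fun v : w.X => s v.1) = col := funext hcol
  have hg : Disjoint (gbox M m) J :=
    (hJ m le_rfl hmm).mono_left (H959.gbox_subset_reg M m)
  obtain ⟨a1, a2, -, -⟩ := frame_foot hC hcol F hK hg
  obtain ⟨-, -, b3, b4⟩ := frame_foot hC hcol F (K := univ) (J := ∅) (k := m')
    ⟨m', mem_univ _, rfl⟩ (disjoint_empty _)
  have h1 := hC.far_of x₀ (o := F.o) F.lt.bi (K := K) (J := J) (t := F.t) hmm a1 a2 ⟨b3, b4⟩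
    (fun k _ _ i h1 h2 => ⟨(F.seen k i h1 h2).1, (F.seen k i h1 h2).2.1⟩) hJ hi hi'
  exact ⟨h1.2.1, h1.1.1, h1.2.2⟩

/-- **(8)** One piece: everything seen between the feet of the gates `k` and `k + 1` is explored, if
the gate `k` is explored and the region `k` is off `J`. -/
theorem seen_EK {K : Set ℕ} {J : Set ℂ} {k : ℕ} (hK : ∃ j ∈ K, j % nc M = k % nc M)
    (hJ : Disjoint (reg M k) J) {i : ℕ} (hi : F.t k ≤ i) (hi' : i ≤ F.t (k + 1)) :
    ((TP w x₀).src (((TP w x₀).st col)^[i] F.o)).1 ∈ EK M w.X Bl₁ Wh₁ Bl₂ Wh₂ K J ∧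
    ((TP w x₀).tgt (((TP w x₀).st col)^[i] F.o)).1 ∈ EK M w.X Bl₁ Wh₁ Bl₂ Wh₂ K J := by
  have h := frame_far hC hcol F (Nat.lt_succ_self k) hK (fun l h1 h2 => by
    obtain rfl : l = k := by omega
    exact hJ) hi hi'
  exact ⟨h.1, h.2.1⟩

/-- The third vertex of a member is explored too. -/
theorem apex_EK {K : Set ℕ} {J : Set ℂ} {k : ℕ} (hK : ∃ j ∈ K, j % nc M = k % nc M)
    (hJ : Disjoint (reg M k) J) {i : ℕ} (hi : F.t k ≤ i) (hi' : i < F.t (k + 1))
    (hm : (TP w x₀).Mi col (((TP w x₀).st col)^[i] F.o)) :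
    ((TP w x₀).apex (((TP w x₀).st col)^[i] F.o)).1 ∈ EK M w.X Bl₁ Wh₁ Bl₂ Wh₂ K J := by
  have h := (seen_EK hC hcol F hK hJ (i := i + 1) (by omega) (by omega)).1
  rwa [iterate_succ', comp_apply, (TP w x₀).src_st_mi hm] at h

/-- Everything seen by the strand of a frame is explored in world 0. -/
theorem frame_seen (i : ℕ) :
    ((TP w x₀).src (((TP w x₀).st col)^[i] F.o)).1 ∈ E0 M w.X Bl₁ Wh₁ Bl₂ Wh₂ ∧
    ((TP w x₀).tgt (((TP w x₀).st col)^[i] F.o)).1 ∈ E0 M w.X Bl₁ Wh₁ Bl₂ Wh₂ := by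
  obtain ⟨k, h1, h2⟩ := F.lt.loc i
  exact seen_EK hC hcol F (K := univ) (J := ∅) ⟨k, mem_univ _, rfl⟩ (disjoint_empty _) h1 h2.le

/-- The dart at a time plus a period. -/
theorem frame_per (k i : ℕ) (h : F.t k ≤ i) :
    ((TP w x₀).st col)^[i - F.t k + F.t (k + nc M)] F.o = ((TP w x₀).st col)^[i] F.o := by
  have h1 := F.lt.per k
  rw [h1, show i - F.t k + (F.t k + H871.per (TP w x₀) col F.o) =
    i + H871.per (TP w x₀) col F.o by omega, iterate_add_apply]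
  unfold H871.per
  rw [iterate_minimalPeriod]

/-- **The data of the door of one arc** (gates `g, …, g'`, door cell `p = g + 4`, `arch` = white explored
sites joined in white explored sites to the right vertex of the foot of the gate `p - 1 = g + 3`). -/
theorem door_data {i₀ : ℂ} (hB : w.B = w.X \ I0 M w.X Bl₁ Wh₁ Bl₂ Wh₂ i₀)
    (hi₀ : nsup i₀ ≤ 1 - ms M / 8) {g g' p : ℕ} (hp : p = g + 4)
    (hg : g + 10 ≤ g') (hs : p < nc M) (hs' : p % (2 * M + 1) < 2 * M) {n : ℕ} {c : ℕ → w.D} {τ : ℕ → ℕ}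
    (hL : H659.Loop (TP w x₀) (piX w) w.O col (((TP w x₀).st col)^[F.t g] F.o) n c τ) {cut : ℕ}
    (hcut : ∀ i < n, i < cut ↔ τ i < F.t g' - F.t g)
    {ρ : ℝ} (hρ : 0 < ρ) (hρa : ρ ≤ ms M / 64)
    (hd : ∀ z : ℂ, nsup z ≤ 1 + ms M → ∃ u ∈ w.X, dist u z < ρ)
    (hi : i₀ ∈ w.X ∩ ball 0 (1 - ms M / 8)) {arch : Set ℂ}
    (harch : ∀ a ∈ arch, ∃ h : a ∈ w.X, H838.Joined (TP w x₀) col false
      {v | v.1 ∈ EK M w.X Bl₁ Wh₁ Bl₂ Wh₂ (Icc (p + 2) (p + nc M)) (cell M p)} ⟨a, h⟩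
      ((TP w x₀).tgt (((TP w x₀).st col)^[F.t (g + 3)] F.o))) :
    H400.DoorData x₀ (EK M w.X Bl₁ Wh₁ Bl₂ Wh₂ (Icc (p + 2) (p + nc M)) (cell M p))
      arch s c n cut := by
  have hM := hC.hM
  have hfin := w.hull.finite_Fc
  have hms := ms_pos hM
  set E := EK M w.X Bl₁ Wh₁ Bl₂ Wh₂ (Icc (p + 2) (p + nc M)) (cell M p) with hE
  have hEE : E ⊆ E0 M w.X Bl₁ Wh₁ Bl₂ Wh₂ := EK_sub_E0 _ _
  have hEB : E ⊆ w.B := by
    rw [hB]
    exact fun z hz => ⟨H678.EJ_sub_X hz, fun h => (H592.comp_subset _ _ _ h).2 (hEE hz)⟩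
  -- the far interval
  have hfar : ∀ i, F.t (g + 6) ≤ i → i ≤ F.t (g + 3 + nc M) →
      ((TP w x₀).src (((TP w x₀).st col)^[i] F.o)).1 ∈ E ∧
      ((TP w x₀).tgt (((TP w x₀).st col)^[i] F.o)).1 ∈ E ∧
      H838.Joined (TP w x₀) col false {v | v.1 ∈ E}
        ((TP w x₀).tgt (((TP w x₀).st col)^[F.t (g + 6)] F.o))
        ((TP w x₀).tgt (((TP w x₀).st col)^[i] F.o)) := by
    intro i h1 h2
    have h12 : 12 ≤ nc M := by unfold nc; omega
    have h3 := frame_far hC hcol F (K := Icc (p + 2) (p + nc M)) (J := cell M p)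
      (m := g + 6) (m' := g + 3 + nc M) (by omega) ⟨g + 6, ⟨by omega, by omega⟩, rfl⟩
      (fun k h3 h4 => reg_off hM (by omega) hs hs' (by omega) (by omega)) h1 h2
    refine ⟨h3.1, h3.2.1, ?_⟩
    obtain ⟨j1, j2, l, j3, j4⟩ := h3.2.2
    exact ⟨j1.1, j2, l, j3, fun e he => ⟨⟨(j4 e he).1.1, (j4 e he).1.2.1⟩,
      ⟨(j4 e he).2.1, (j4 e he).2.2.1⟩⟩⟩
  -- the times of the members
  have htime : ∀ i < n, ((TP w x₀).st col)^[τ i + F.t g] F.o = c i ∧
      τ i + F.t g < F.t (g + nc M) := by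
    intro i hi
    refine ⟨by rw [iterate_add_apply]; exact hL.hit i hi, ?_⟩
    have h1 := hL.lt i hi
    rw [H871.per_iter] at h1
    rw [F.lt.per]; omega
  have hmem : ∀ i, cut ≤ i → i < n → F.t (g + 6) ≤ τ i + F.t g ∧
      τ i + F.t g ≤ F.t (g + 3 + nc M) := by
    intro i h1 h2
    have h3 : ¬ (τ i < F.t g' - F.t g) := fun h => by
      have := (hcut i h2).2 h
      omega
    have h4 : F.t (g + 6) ≤ F.t g' := F.lt.mono (by omega)
    have h5 : F.t g ≤ F.t g' := F.lt.mono (by omega)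
    have h6 : F.t (g + nc M) ≤ F.t (g + 3 + nc M) := F.lt.mono (by omega)
    have h7 := (htime i h2).2
    omega
  have hfoot : ((TP w x₀).st col)^[F.t (g + 3 + nc M)] F.o =
      ((TP w x₀).st col)^[F.t (g + 3)] F.o := by
    have := frame_per hC hcol F (g + 3) (F.t (g + 3)) le_rfl
    rwa [Nat.sub_self, Nat.zero_add] at this
  refine ⟨hEB, ?_, ?_, ?_, ⟨col, hL.ring⟩, ⟨?_, ?_, ?_⟩, ?_⟩
  · intro a ha
    obtain ⟨h, h1⟩ := harch a ha
    exact h1.1
  · intro a ha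
    obtain ⟨h, h1⟩ := harch a ha
    have := h1.2.1
    rwa [← hcol] at this
  · intro u v huv hu
    obtain ⟨h, h1⟩ := harch u hu
    have h2 : s u = false := by
      have := h1.2.1
      rwa [← hcol] at this
    rw [hB]
    exact hC.white_adj hi₀ (hEE h1.1) h2 huv
  · intro i h1 h2
    obtain ⟨h3, h4⟩ := hmem i h1 h2
    obtain ⟨h5, -⟩ := htime i h2
    have h6 := (hfar _ h3 h4).1
    have h7 := (frame_col hC hcol F (τ i + F.t g)).1
    rw [h5] at h6 h7
    exact ⟨h6, h7⟩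
  · intro i h1 h2
    obtain ⟨h3, h4⟩ := hmem i h1 h2
    obtain ⟨h5, -⟩ := htime i h2
    have h6 := (hfar _ h3 h4).2.1
    have h7 := (frame_col hC hcol F (τ i + F.t g)).2
    rw [h5] at h6 h7
    exact ⟨h6, h7⟩
  · intro a ha i h1 h2
    obtain ⟨h3, h4⟩ := hmem i h1 h2
    obtain ⟨h5, -⟩ := htime i h2
    obtain ⟨h, h6⟩ := harch a ha
    have h7 := (hfar _ h3 h4).2.2
    have h8 := (hfar (F.t (g + 3 + nc M)) (F.lt.mono (by unfold nc; omega)) le_rfl).2.2
    rw [hfoot] at h8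
    rw [h5] at h7
    obtain rfl : (fun v : w.X => s v.1) = col := funext hcol
    exact h6.trans (h8.symm.trans h7)
  · -- an edge from the free region to the explored set
    have hI5 : ∀ z ∈ w.X, ‖z‖ < 1 - ms M / 8 → z ∈ I0 M w.X Bl₁ Wh₁ Bl₂ Wh₂ i₀ := fun z hz hz2 =>
      hC.ball_sub le_rfl hi ⟨hz, by simpa using hz2⟩
    obtain ⟨u, hu, v, hv, huv, -, hvb⟩ := H112.arc_nonempty (X := w.X)
      (E := E0 M w.X Bl₁ Wh₁ Bl₂ Wh₂) (I := I0 M w.X Bl₁ Wh₁ Bl₂ Wh₂ i₀) hM w.hull.fin hρ hρa hd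
      (fun z hz => hC.E0_nsup hz) (fun z hz => hC.I0_nsup hi₀ hz) hI5
      (fun u hu v huv hv => by
        by_contra hc
        exact hv (H592.nbr_comp hu huv |>.resolve_left hc)) (s := p) (by omega)
    obtain ⟨e, he1, he2⟩ := HT_dart w.hull x₀ (x := ⟨v, huv.2.1⟩) (y := ⟨u, huv.1⟩) (nbr_symm huv)
    have hvB : v ∈ w.B := by
      rw [hB]
      exact ⟨huv.2.1, fun h => (H592.comp_subset _ _ _ h).2 hv⟩
    have huB : u ∉ w.B := by
      rw [hB]
      exact fun h => h.2 hu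
    have hO1 : piX w ((TP w x₀).src e) = w.O := by
      rw [he1]
      exact H400.piB_eq_iff.2 hvB
    have hO2 : piX w ((TP w x₀).tgt e) ≠ w.O := by
      rw [he2]
      exact fun h => huB (H400.piB_eq_iff.1 h)
    obtain ⟨i, hin, hie⟩ := hL.ring.ring e hO1 hO2
    have hct : H871.Contr (TP w x₀) w.T (piX w) := H400.contrB w.hull w.fib x₀
    refine ⟨e, ?_, ?_, i, ?_, hie⟩
    · rw [hct.src]; exact hO1
    · rw [hct.tgt]; exact hO2
    · obtain ⟨h5, h6⟩ := htime i hin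
      obtain ⟨k, h7, h8⟩ := F.lt.loc (τ i + F.t g)
      have h9 := (F.seen k _ h7 h8).1
      rw [h5, ← hie, he1] at h9
      have h10 : F.t g < F.t (k + 1) := by omega
      have h11 : F.t k < F.t (g + nc M) := by omega
      have h12 := F.lt.lt_iff.1 h10
      have h13 := F.lt.lt_iff.1 h11
      have h14 : 12 ≤ nc M := by unfold nc; omega
      have h15 := (reg_near hM hs (by omega) (by omega) (by omega) h13 h9 hvb).1
      rw [hcut i hin]
      have h16 : F.t (k + 1) ≤ F.t g' := F.lt.mono (by omega)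
      omega

/-- **The data of the door of the arc `j`** of 172's partition. -/
theorem door_data_ga {i₀ : ℂ} (hB : w.B = w.X \ I0 M w.X Bl₁ Wh₁ Bl₂ Wh₂ i₀)
    (hi₀ : nsup i₀ ≤ 1 - ms M / 8) {N j : ℕ} (hN : 10 * (N + 1) ≤ 2 * M + 1) (hj : j < H172.nA N)
    {n : ℕ} {c : ℕ → w.D} {τ : ℕ → ℕ}
    (hL : H659.Loop (TP w x₀) (piX w) w.O col
      (((TP w x₀).st col)^[F.t (H172.ga N M j)] F.o) n c τ)
    {ρ : ℝ} (hρ : 0 < ρ) (hρa : ρ ≤ ms M / 64)
    (hd : ∀ z : ℂ, nsup z ≤ 1 + ms M → ∃ u ∈ w.X, dist u z < ρ)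
    (hi : i₀ ∈ w.X ∩ ball 0 (1 - ms M / 8)) {arch : Set ℂ}
    (harch : ∀ a ∈ arch, ∃ h : a ∈ w.X, H838.Joined (TP w x₀) col false
      {v | v.1 ∈ EK M w.X Bl₁ Wh₁ Bl₂ Wh₂ (Icc (H172.dcl N M j + 2) (H172.dcl N M j + nc M))
        (cell M (H172.dcl N M j))} ⟨a, h⟩
      ((TP w x₀).tgt (((TP w x₀).st col)^[F.t (H172.ga N M j + 3)] F.o))) :
    ∃ cut ≤ n, (∀ i < n, i < cut ↔ τ i < F.t (H172.ga N M (j + 1)) - F.t (H172.ga N M j)) ∧
      H659.arc (TP w x₀) w.T w.O c cut = H659.arcP (TP w x₀) w.T w.O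
        (H659.early (TP w x₀) col (((TP w x₀).st col)^[F.t (H172.ga N M j)] F.o) (c 0)
          (F.t (H172.ga N M (j + 1)) - F.t (H172.ga N M j))) ∧
      H400.DoorData x₀ (EK M w.X Bl₁ Wh₁ Bl₂ Wh₂
        (Icc (H172.dcl N M j + 2) (H172.dcl N M j + nc M)) (cell M (H172.dcl N M j)))
        arch s c n cut := by
  have h10 := H172.ga_add_le (N := N) (M := M) hN j
  have hlast : H172.ga N M (j + 1) ≤ nc M := by
    rw [← H172.ga_last (N := N)]
    exact H172.ga_mono hj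
  have htb : F.t (H172.ga N M (j + 1)) - F.t (H172.ga N M j) ≤
      H871.per (TP w x₀) col (((TP w x₀).st col)^[F.t (H172.ga N M j)] F.o) := by
    have hfin := w.hull.finite_Fc
    rw [H871.per_iter, ← F.per_eq]
    have : F.t (H172.ga N M (j + 1)) ≤ F.t (nc M) := F.lt.mono hlast
    omega
  obtain ⟨cut, h1, h2, h3⟩ := hL.exists_cut (T1 := w.T) htb
  exact ⟨cut, h1, h2, h3, door_data hC hcol F hB hi₀ rfl (by omega)
    (show H172.dcl N M j < nc M by unfold H172.dcl; omega) (H172.dcl_straight hN j) hL h2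
    hρ hρa hd hi harch⟩

end frame

end Vale.Agent.P148.R2.H419
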