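import Vale.Agent.P148.R2.H419.Col1
import Vale.Agent.P148.R2.H565.Loc12
import Vale.Agent.P148.R2.H678.Cl
import Vale.Agent.P148.R2.H871.CW5
import Vale.Agent.P148.R2.H995.Ring
import Vale.Agent.P148.R2.H959.Reg
import Vale.Agent.P148.R2.H592.Dom1

/-!
# P148, row W1: world 0 of the collar, deterministic facts

`Col` : the comb events and the radial crossings for the composite colouring `s`.
`E0` : the explored set of world 0, `I0` the fresh region, `l` the closed strand of the comb.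
-/

open Set Relation Metric Function

namespace Vale.Agent.P148.R2.H419

open Vale.Agent.P148.R2.H258 Vale.Agent.P148.R2.H565
open Vale.Agent.P148.R2.N (ms nc gateC gbox cell csq ms_pos)
open Vale.Agent.P148.R2.H592 (HullTri nbr nbr_symm ConnIn Fc idmap fib_id tail head vc Three comp)
open Vale.Agent.P148.R2.H959 (Jn reg)
open Vale.Agent.P148.R2.H678 (core hub pin pout sd CBox CCr InGood OutGood Tooth Rails Rad inHub
  outHub inRim outRim hbox uo HubsGood Ex mix mB mW EJ D0 oseed rd RD)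
open Vale.Agent.P148.R2.H995 (nsup Pieces)

/-! ### regions -/

theorem regs_reg {M : ℕ} (hM : 0 < M) : Regs M (reg M) where
  per k := H959.reg_add_nc M k
  conv k := H959.convex_reg M k
  opn k := H959.isOpen_reg M k
  g1 k := H959.gbox_subset_reg M k
  g2 k := H959.gbox_succ_subset_reg hM k
  lo k := by
    have h0 := ms_pos hM
    refine H959.cbox_subset_reg hM (H959.pin_eq M k) (H959.pin_eq M (k + 1)) ?_ ?_ ?_
    · rw [norm_neg, H959.norm_off hM]
    · rw [norm_neg, H959.norm_off hM]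
    · have := (H995.norm_railin hM k).1
      unfold sd; linarith
  up k := by
    have h0 := ms_pos hM
    refine H959.cbox_subset_reg hM (H959.pout_eq M k) (H959.pout_eq M (k + 1)) ?_ ?_ ?_
    · rw [H959.norm_off hM]
    · rw [H959.norm_off hM]
    · have := (H995.norm_railout hM k).1
      unfold sd; linarith
  disj j k h1 h2 := H959.disjoint_reg hM h1 h2

/-! ### walks and sequences -/

section seq

variable {X : Set ℂ} {b : ZMod 3 → ℂ} (h : HullTri X b) (x₀ : X)

/-- A walk of darts as a sequence of sites. -/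
theorem HT_seq {x y : X} {l : List (Fc X b × ZMod 3)} (hl : (HT h x₀).Walk x y l) :
    ∃ (m : ℕ) (u : ℕ → ℂ), u 0 = x ∧ u m = y ∧ (∀ i < m, nbr X (u i) (u (i + 1))) ∧
      ∀ i ≤ m, u i = x ∨ ∃ g ∈ l, (((HT h x₀).tgt g : X) : ℂ) = u i := by
  induction hl with
  | nil v =>
    refine ⟨0, fun _ => v.1, rfl, rfl, fun i hi => by omega, fun i _ => Or.inl rfl⟩
  | cons g w l hl ih =>
    obtain ⟨m, u, h0, h1, h2, h3⟩ := ih
    refine ⟨m + 1, fun i => if i = 0 then (((HT h x₀).src g : X) : ℂ) else u (i - 1), ?_, ?_, ?_,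
      ?_⟩
    · simp
    · simp [h1]
    · intro i hi
      rcases Nat.eq_zero_or_pos i with rfl | hi0
      · simp only [if_true, zero_add, one_ne_zero, if_false]
        rw [show 1 - 1 = 0 by rfl, h0]
        exact HT_nbr h x₀ g
      · have hne : i ≠ 0 := hi0.ne'
        simp only [hne, if_false, Nat.succ_ne_zero, Nat.add_eq_zero_iff, one_ne_zero, and_false]
        have := h2 (i - 1) (by omega)
        rwa [show i - 1 + 1 = i by omega] at this
    · intro i hi
      rcases Nat.eq_zero_or_pos i with rfl | hi0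
      · left; simp
      · have hne : i ≠ 0 := hi0.ne'
        right
        simp only [hne, if_false]
        rcases h3 (i - 1) (by omega) with h4 | ⟨g', hg', h4⟩
        · exact ⟨g, by simp, h4.symm⟩
        · exact ⟨g', List.mem_cons_of_mem _ hg', h4⟩

/-- **Separation by the closed ring**: a family of connected sets `P k` in the regions, which contain
points of the two gate boxes, is met by all the walks from the inside to the outside. -/
theorem ring_meets {M : ℕ} (hM : 0 < M) {P : ℕ → Set X} {p : ℕ → X}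
    (hc : ∀ k, WConn (HT h x₀) (P k)) (h1 : ∀ k, p k ∈ P k) (h2 : ∀ k, p (k + 1) ∈ P k)
    (hper : p (nc M) = p 0) (hg : ∀ k, (p k : ℂ) ∈ gbox M k)
    (hreg : ∀ k, ∀ v ∈ P k, (v : ℂ) ∈ reg M k) {m : ℕ} {u : ℕ → ℂ}
    (hu : ∀ i < m, nbr X (u i) (u (i + 1))) (hu0 : nsup (u 0) ≤ 1 - ms M / 8)
    (hu1 : 1 + 5 * ms M / 8 ≤ nsup (u m)) : ∃ i ≤ m, ∃ k, ∃ v ∈ P k, (v : ℂ) = u i := by
  have hex : ∀ k, ∃ (n : ℕ) (w : ℕ → ℂ), w 0 = p k ∧ w n = p (k + 1) ∧
      (∀ i < n, nbr X (w i) (w (i + 1))) ∧ ∀ i ≤ n, ∃ v ∈ P k, (v : ℂ) = w i := by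
    intro k
    obtain ⟨l, hl, hlm⟩ := hc k _ (h1 k) _ (h2 k)
    obtain ⟨n, w, a1, a2, a3, a4⟩ := HT_seq h x₀ hl
    refine ⟨n, w, a1, a2, a3, fun i hi => ?_⟩
    rcases a4 i hi with h5 | ⟨g, hg', h5⟩
    · exact ⟨p k, h1 k, h5.symm⟩
    · exact ⟨_, (hlm g hg').2, h5⟩
  choose n w a1 a2 a3 a4 using hex
  have hP : Pieces (nc M) n w (fun k => (p k : ℂ)) :=
    ⟨fun k _ => a1 k, fun k _ => a2 k, by rw [hper]⟩
  have hms := ms_pos hM
  have hms1 := N.ms_le_one (M := M)
  obtain ⟨i, hi, k, v, hv, h5⟩ := H995.ring_sep (B := {z | ∃ k, ∃ v ∈ P k, (v : ℂ) = z})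
    h.three hM hP (fun k _ => a3 k) (fun k _ i hi => ⟨k, a4 k i hi⟩)
    (C := reg M) (fun k _ => H959.convex_reg M k) (fun k _ => H959.isOpen_reg M k)
    (fun k _ i hi => by
      obtain ⟨v, hv, h6⟩ := a4 k i hi
      rw [← h6]; exact hreg k v hv)
    (r := 1 - ms M / 8) (R := 1 + 5 * ms M / 8) (by linarith)
    (fun k _ z hz => H959.reg_nsup hM hz) (fun k _ => hg k) hu hu0 hu1
  exact ⟨i, hi, k, v, hv, h5⟩

end seq

end Vale.Agent.P148.R2.H419
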