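import Vale.Agent.P148.R2.H565.Loc11
import Vale.Agent.P148.R2.H838.X2

/-!
# P148, row W1: what the closed strand of the comb sees lies in the white closures

`Clo T σ A Wc E` : `Wc` is a set of vertices closed under white moves into the allowed set `A`, and all
the neighbours in `A` of the vertices of `Wc` are in `E`.  A portion of a strand whose right vertices are
white, whose vertices are allowed and which starts in `Wc` has all its right vertices in `Wc` and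
all its left vertices in `E`; its right vertices are joined to each other in `Wc`.
-/

namespace Vale.Agent.P148.R2.H419

open Function Vale.Agent.P148.R2.H258 Vale.Agent.P148.R2.H565 Vale.Agent.P148.R2.H838

variable {V D : Type*} {T : Tri V D} {σ : V → Bool}

/-- `Wc` is closed under white moves into `A`; its neighbours in `A` are in `E`. -/
structure Clo (T : Tri V D) (σ : V → Bool) (A Wc E : Set V) : Prop where
  step : ∀ g, T.src g ∈ Wc → T.tgt g ∈ A → σ (T.tgt g) = false → T.tgt g ∈ Wc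
  nbr : ∀ g, T.src g ∈ Wc → T.tgt g ∈ A → T.tgt g ∈ E
  sub : Wc ⊆ E

variable {A Wc E : Set V}

theorem Clo.walk (h : Clo T σ A Wc E) {u v : V} {l : List D} (hl : T.Walk u v l) (hu : u ∈ Wc)
    (hc : ∀ g ∈ l, T.tgt g ∈ A ∧ σ (T.tgt g) = false) :
    v ∈ Wc ∧ ∀ g ∈ l, T.src g ∈ Wc ∧ T.tgt g ∈ Wc := by
  induction hl with
  | nil v => exact ⟨hu, by simp⟩
  | cons a w l hl ih =>
    have h1 := hc a (by simp)
    have h2 := h.step a hu h1.1 h1.2
    obtain ⟨h3, h4⟩ := ih h2 (fun g hg => hc g (List.mem_cons_of_mem _ hg))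
    refine ⟨h3, fun g hg => ?_⟩
    rcases List.mem_cons.1 hg with rfl | hg
    · exact ⟨hu, h2⟩
    · exact h4 g hg

/-- A white walk in `A` from a vertex of `Wc`. -/
theorem Clo.joined (h : Clo T σ A Wc E) {u v : V} {l : List D} (hl : T.Walk u v l) (hu : u ∈ Wc)
    (hu' : σ u = false) (hc : ∀ g ∈ l, T.tgt g ∈ A ∧ σ (T.tgt g) = false) :
    Joined T σ false Wc u v := by
  obtain ⟨h1, h2⟩ := h.walk hl hu hc
  refine ⟨hu, hu', l, hl, fun g hg => ⟨⟨?_, (h2 g hg).1⟩, (hc g hg).2, (h2 g hg).2⟩⟩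
  -- the source of a dart of the walk is white
  rcases walk_src_mem hl g hg with h3 | ⟨g', hg', h3⟩
  · rw [h3]; exact hu'
  · rw [← h3]; exact (hc g' hg').2

/-- One step of a strand. -/
theorem tgt_st_cases {o : D} (hb : T.Bi σ o) :
    T.tgt (T.st σ o) = T.tgt o ∨
      (T.tgt (T.st σ o) = T.tgt (T.nxt o) ∧ T.src (T.nxt o) = T.tgt o) := by
  by_cases hm : T.Mi σ o
  · left; exact T.tgt_st_mi hm
  · right
    refine ⟨?_, T.src_nxt' o⟩
    rw [T.tgt_st_nmi hb hm, T.tgt_nxt]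

/-- **Hugging.** The right vertices of a strand portion in `A` stay in `Wc`, the left ones are in
`E`. -/
theorem Clo.hug (h : Clo T σ A Wc E) {o : D} (hb : T.Bi σ o) (hw : σ (T.tgt o) = false) {i₀ i₁ : ℕ}
    (hA : ∀ i, i₀ ≤ i → i ≤ i₁ → T.src ((T.st σ)^[i] o) ∈ A ∧ T.tgt ((T.st σ)^[i] o) ∈ A)
    (h0 : T.tgt ((T.st σ)^[i₀] o) ∈ Wc) :
    ∀ i, i₀ ≤ i → i ≤ i₁ → T.tgt ((T.st σ)^[i] o) ∈ Wc ∧ T.src ((T.st σ)^[i] o) ∈ E ∧
      Joined T σ false Wc (T.tgt ((T.st σ)^[i₀] o)) (T.tgt ((T.st σ)^[i] o)) := by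
  have hcol : ∀ i, σ (T.tgt ((T.st σ)^[i] o)) = false := by
    intro i
    rw [T.col_tgt_iter σ o i, hw]
  have hsrc : ∀ i, i₀ ≤ i → i ≤ i₁ → T.tgt ((T.st σ)^[i] o) ∈ Wc → T.src ((T.st σ)^[i] o) ∈ E := by
    intro i h1 h2 h3
    have := h.nbr (T.rev ((T.st σ)^[i] o)) (by rw [T.src_rev]; exact h3)
      (by rw [T.tgt_rev]; exact (hA i h1 h2).1)
    rwa [T.tgt_rev] at this
  have key : ∀ m, i₀ + m ≤ i₁ → T.tgt ((T.st σ)^[i₀ + m] o) ∈ Wc ∧
      Joined T σ false Wc (T.tgt ((T.st σ)^[i₀] o)) (T.tgt ((T.st σ)^[i₀ + m] o)) := by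
    intro m
    induction m with
    | zero => exact fun _ => ⟨h0, H838.Joined.refl h0 (hcol _)⟩
    | succ m ih =>
      intro hm
      obtain ⟨h1, h2⟩ := ih (by omega)
      have hbm : T.Bi σ ((T.st σ)^[i₀ + m] o) := (T.bi_iter (i₀ + m)).2 hb
      have e : (T.st σ)^[i₀ + (m + 1)] o = T.st σ ((T.st σ)^[i₀ + m] o) := by
        rw [show i₀ + (m + 1) = (i₀ + m) + 1 by ring, iterate_succ', comp_apply]
      have hA' := (hA (i₀ + (m + 1)) (by omega) hm).2
      have hc' := hcol (i₀ + (m + 1))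
      rw [e] at hA' hc' ⊢
      rcases tgt_st_cases hbm with h3 | ⟨h3, h4⟩
      · rw [h3]; exact ⟨h1, h2⟩
      · rw [h3] at hA' hc' ⊢
        have h5 := h.step _ (by rw [h4]; exact h1) hA' hc'
        refine ⟨h5, h2.trans ?_⟩
        exact H838.Joined.cons h4 rfl h1 (hcol _) (H838.Joined.refl h5 hc')
  intro i h1 h2
  obtain ⟨m, rfl⟩ : ∃ m, i = i₀ + m := ⟨i - i₀, by omega⟩
  obtain ⟨h3, h4⟩ := key m h2
  exact ⟨h3, hsrc _ h1 h2 h3, h4⟩

/-! ### Loops -/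

/-- The closed strand of `d 0` passes the feet `d k` at the times `t k`, closes up at the time `t K`
and during piece `k` it sees vertices of `X k` only. -/
structure Loop (T : Tri V D) (σ : V → Bool) (K : ℕ) (d : ℕ → D) (X : ℕ → Set V) (t : ℕ → ℕ) :
    Prop where
  bi : T.Bi σ (d 0)
  t0 : t 0 = 0
  inc : ∀ k < K, t k < t (k + 1)
  hit : ∀ k ≤ K, (T.st σ)^[t k] (d 0) = d k
  per : t K = H871.per T σ (d 0)
  seen : ∀ k < K, ∀ i, t k ≤ i → i < t (k + 1) → T.src ((T.st σ)^[i] (d 0)) ∈ X k ∧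
    T.tgt ((T.st σ)^[i] (d 0)) ∈ X k ∧ T.apex ((T.st σ)^[i] (d 0)) ∈ X k
  fs : ∀ k < K, T.src (d (k + 1)) ∈ X k ∧ T.tgt (d (k + 1)) ∈ X k

section loop

variable {K : ℕ} {d : ℕ → D} {X : ℕ → Set V} {t : ℕ → ℕ}

theorem Loop.mono (h : Loop T σ K d X t) {j k : ℕ} (hjk : j ≤ k) (hk : k ≤ K) : t j ≤ t k :=
  mono_of_lt h.inc hjk hk

/-- Every time before `t m` belongs to a piece `k < m`. -/
theorem Loop.piece (h : Loop T σ K d X t) {m : ℕ} (hm : m ≤ K) {i : ℕ} (hi : i < t m) :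
    ∃ k < m, t k ≤ i ∧ i < t (k + 1) := by
  induction m with
  | zero => rw [h.t0] at hi; omega
  | succ m ih =>
    rcases Nat.lt_or_ge i (t m) with h1 | h1
    · obtain ⟨k, hk, h2⟩ := ih (by omega) h1
      exact ⟨k, by omega, h2⟩
    · exact ⟨m, by omega, h1, hi⟩

theorem Loop.mem (h : Loop T σ K d X t) {m : ℕ} (hm : m ≤ K) {A : Set V}
    (hA : ∀ k < m, X k ⊆ A) {i : ℕ} (hi : i < t m) :
    T.src ((T.st σ)^[i] (d 0)) ∈ A ∧ T.tgt ((T.st σ)^[i] (d 0)) ∈ A ∧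
      T.apex ((T.st σ)^[i] (d 0)) ∈ A := by
  obtain ⟨k, hk, h1, h2⟩ := h.piece hm hi
  obtain ⟨h3, h4, h5⟩ := h.seen k (by omega) i h1 h2
  exact ⟨hA k hk h3, hA k hk h4, hA k hk h5⟩

/-- Every time between `t m` and `t K` belongs to a piece. -/
theorem Loop.piece' (h : Loop T σ K d X t) {m : ℕ} (hm : m ≤ K) {i : ℕ} (hmi : t m ≤ i)
    (hi : i < t K) : ∃ k, m ≤ k ∧ k < K ∧ t k ≤ i ∧ i < t (k + 1) := by
  obtain ⟨k, hk, h1, h2⟩ := h.piece le_rfl hi
  refine ⟨k, ?_, hk, h1, h2⟩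
  by_contra hc
  push Not at hc
  have := h.mono (show k + 1 ≤ m from hc) hm
  omega

/-- **Hugging along the pieces `m, …, K - 1`.** -/
theorem Loop.hug (h : Loop T σ K d X t) (hC : Clo T σ A Wc E) (hw : σ (T.tgt (d 0)) = false)
    {m : ℕ} (hm : m ≤ K) (h0 : T.tgt (d m) ∈ Wc) (h0' : T.src (d m) ∈ A ∧ T.tgt (d m) ∈ A)
    (hA : ∀ k, m ≤ k → k < K → X k ⊆ A) {i : ℕ} (hmi : t m ≤ i) (hi : i ≤ t K) :
    T.tgt ((T.st σ)^[i] (d 0)) ∈ Wc ∧ T.src ((T.st σ)^[i] (d 0)) ∈ E ∧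
      Joined T σ false Wc (T.tgt (d m)) (T.tgt ((T.st σ)^[i] (d 0))) := by
  have hh := h.hit m hm
  have hmem : ∀ j, t m ≤ j → j ≤ t K → T.src ((T.st σ)^[j] (d 0)) ∈ A ∧
      T.tgt ((T.st σ)^[j] (d 0)) ∈ A := by
    intro j h1 h2
    rcases h2.lt_or_eq with h3 | h3
    · obtain ⟨k, h4, h5, h6, h7⟩ := h.piece' hm h1 h3
      obtain ⟨a1, a2, -⟩ := h.seen k h5 j h6 h7
      exact ⟨hA k h4 h5 a1, hA k h4 h5 a2⟩
    · rw [h3, h.hit K le_rfl]
      rcases hm.lt_or_eq with h4 | h4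
      · obtain ⟨a1, a2⟩ := h.fs (K - 1) (by omega)
        rw [show K - 1 + 1 = K by omega] at a1 a2
        exact ⟨hA (K - 1) (by omega) (by omega) a1, hA (K - 1) (by omega) (by omega) a2⟩
      · rw [← h4]; exact h0'
  have := hC.hug h.bi hw (i₀ := t m) (i₁ := t K) hmem (by rw [hh]; exact h0) i hmi hi
  rw [hh] at this
  exact this

/-- A loop from the closed ring of tubes. -/
theorem loop_of_cring [Finite D] (hPl : T.Planar) {P Q : ℕ → Set V} {ω : V}
    (h : CRing T σ true K d P Q X ω) {g₀ : D} (hg : T.src g₀ = ω)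
    (hor : Pos T σ (X 0) g₀ (d 0) (d 1)) : ∃ t, Loop T σ K d X t := by
  obtain ⟨p, q, N, t, hC, ht, hK, hN0, hN1, -, hsub⟩ := h.loop hPl hg hor
  have h4 := h.four
  refine ⟨t, ?_, ht.t0, ht.inc, ht.hit, hK, ?_, ?_⟩
  · have h1 := h.colP 0 _ (h.s1 0)
    have h2 := h.colQ 0 _ (h.t1 0)
    unfold Tri.Bi
    rw [h1, h2]
    decide
  · intro k hk i h1 h2
    exact hC.seen ht hk (h.out k) (h.conn k) (hsub k hk) hg (hN0 k hk) (hN1 k hk) h1 h2
  · intro k _
    exact ⟨h.subP k (h.s2 k), h.subQ k (h.t2 k)⟩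

/-- The shifted ring. -/
theorem cring_shift {P Q : ℕ → Set V} {ω : V} {c : Bool} (h : CRing T σ c K d P Q X ω) (j : ℕ) :
    CRing T σ c K (fun i => d (j + i)) (fun i => P (j + i)) (fun i => Q (j + i))
      (fun i => X (j + i)) ω where
  four := h.four
  dper k := by have := h.dper (j + k); rwa [show j + k + K = j + (k + K) by ring] at this
  pc k := h.pc _
  qc k := h.qc _
  colP k := h.colP _
  colQ k := h.colQ _
  s1 k := h.s1 _
  s2 k := h.s2 (j + k)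
  t1 k := h.t1 _
  t2 k := h.t2 (j + k)
  disj2 a b h1 h2 x hx := h.disj2 (j + a) (j + b) (by omega) (by omega) x hx
  subP k := h.subP _
  subQ k := h.subQ _
  out k := h.out _
  conn k := h.conn _
  far a b h1 h2 := by
    apply h.far
    · intro h3
      apply h1
      exact Nat.ModEq.add_left_cancel' j h3
    · intro h3
      apply h2
      exact Nat.ModEq.add_left_cancel' j h3

end loop

end Vale.Agent.P148.R2.H419
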