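import Vale.Agent.P148.R2.H419.Col3

/-!
# P148, row W1: the closed ring of feet, world 0

`Rg` : a positively oriented closed ring of feet and regions (`γ k` = gate of the foot `d k`, `ρ k` =
region of piece `k`).  Facts of world 0: position of the explored set and of the fresh region, the
boundary of the fresh region, the main class.
-/

set_option linter.unusedSectionVars false

open Set Relation Metric Function

namespace Vale.Agent.P148.R2.H419

open Vale.Agent.P148.R2.H258 Vale.Agent.P148.R2.H565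
open Vale.Agent.P148.R2.N (ms nc gateC gbox cell csq ms_pos)
open Vale.Agent.P148.R2.H592 (HullTri nbr nbr_symm ConnIn Fc idmap fib_id tail head vc Three comp)
open Vale.Agent.P148.R2.H959 (Jn reg)
open Vale.Agent.P148.R2.H678 (core hub pin pout sd CBox CCr InGood OutGood Tooth Rails Rad inHub
  outHub inRim outRim hbox uo HubsGood Ex mix mB mW EJ D0 oseed rd RD)
open Vale.Agent.P148.R2.H995 (nsup Pieces)

variable {M : ℕ} {X : Set ℂ} {b : ZMod 3 → ℂ} {Bl₁ Wh₁ Bl₂ Wh₂ : Set ℂ} {s : ℂ → Bool}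

/-- The index relations of a ring: forward or backward. -/
def Dir (K : ℕ) (γ ρ : ℕ → ℕ) (p : ℕ) : Bool → Prop
  | true => ∀ k, γ k % K = (p + k) % K ∧ ρ k % K = (p + k) % K
  | false => ∀ k, (γ k + k) % K = p % K ∧ (ρ k + 1 + k) % K = p % K

/-- A closed ring of feet (no orientation). -/
structure Rb (hC : Col M X b Bl₁ Wh₁ Bl₂ Wh₂ s) (x₀ : X) (d : ℕ → Fc X b × ZMod 3)
    (P Q : ℕ → Set X) (γ ρ : ℕ → ℕ) : Prop where
  ring : CRing (HT hC.hull x₀) (fun v => s v.1) true (nc M) d P Q (fun k => vs (reg M (ρ k)))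
    ⟨b 0, hC.hull.mem 0⟩
  foot : ∀ k, Foot hC.hull x₀ M Bl₁ Wh₁ s (γ k) (d k)

/-- A positively oriented closed ring of feet. -/
structure Rg (hC : Col M X b Bl₁ Wh₁ Bl₂ Wh₂ s) (x₀ : X) (d : ℕ → Fc X b × ZMod 3)
    (P Q : ℕ → Set X) (γ ρ : ℕ → ℕ) : Prop extends Rb hC x₀ d P Q γ ρ where
  pos : ∃ g₀, (HT hC.hull x₀).src g₀ = ⟨b 0, hC.hull.mem 0⟩ ∧
    ∀ k, Pos (HT hC.hull x₀) (fun v => s v.1) (vs (reg M (ρ k))) g₀ (d k) (d (k + 1))

section col

variable (hC : Col M X b Bl₁ Wh₁ Bl₂ Wh₂ s)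
include hC

theorem Col.exists_dart (x₀ : X) (v : X) : ∃ g, (HT hC.hull x₀).src g = v := by
  by_cases hv : v.1 = b 0
  · obtain ⟨g, h1, -⟩ := HT_dart hC.hull x₀ (x := v) (y := ⟨b 1, hC.hull.mem 1⟩) (by
      have := nbr_symm (hC.hull.nbr_hull 0)
      rw [hv]
      exact this)
    exact ⟨g, h1⟩
  · obtain ⟨l, hl, -⟩ := HT_escape hC.hull x₀ (K := ∅) convex_empty isOpen_empty (by simp) v
      (by intro h; exact h)
    rcases hl.casesOn' with ⟨_, h2⟩ | ⟨g, l', _, h3, _⟩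
    · exact absurd (congrArg Subtype.val h2) (fun h => hv h)
    · exact ⟨g, h3⟩

/-- Existence of the feet. -/
theorem Col.exists_feet (x₀ : X) : ∃ d : ℕ → Fc X b × ZMod 3, (∀ k, d (k + nc M) = d k) ∧
    ∀ k, Foot hC.hull x₀ M Bl₁ Wh₁ s k (d k) := by
  have h1 : ∀ k, ∃ d, Foot hC.hull x₀ M Bl₁ Wh₁ s k d := fun k => (hC.hubs x₀).exists_foot k
  choose d hd using h1
  refine ⟨fun k => d (k % nc M), fun k => by simp only [Nat.add_mod_right], fun k => ?_⟩
  have := hd (k % nc M)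
  rwa [Foot_mod] at this

/-- **Existence of the ring** (forward) and of the positively oriented one, forward or backward. -/
theorem Col.exists_rg (x₀ : X) : ∃ d P Q, Rb hC x₀ d P Q (fun k => k) (fun k => k) ∧
    ∃ P' Q' γ ρ dir, Rg hC x₀ (fun k => d (γ k)) P' Q' γ ρ ∧ Dir (nc M) γ ρ 0 dir := by
  have hfin := hC.hull.finite_Fc
  obtain ⟨d, h1, h2⟩ := hC.exists_feet x₀
  have hPl := HT_planar hC.hull x₀
  have hcomb := (hC.hubs x₀).comb hPl h1 h2
  obtain ⟨P, Q, hR⟩ := hcomb.cring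
  have hX : ∀ k, (fun k => (vs (reg M k) : Set X)) (k + nc M) = (fun k => vs (reg M k)) k :=
    fun k => by simp only [H959.reg_add_nc]
  obtain ⟨g₀, hg⟩ := hC.exists_dart x₀ ⟨b 0, hC.hull.mem 0⟩
  have hK := H565.nc_pos M
  refine ⟨d, P, Q, ⟨hR, h2⟩, ?_⟩
  rcases hR.dichotomy hPl hX hg with h3 | h3
  · refine ⟨P, Q, fun k => k, fun k => k, true, ⟨⟨hR, h2⟩, g₀, hg, h3⟩, ?_⟩
    intro k; simp
  · have hR' := hR.reverse hX
    have hri : ∀ k, (ri (nc M) k + k) % nc M = 0 := by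
      intro k
      unfold ri
      have h4 := Nat.mod_lt k hK
      have h5 := Nat.div_add_mod k (nc M)
      have h6 : nc M - k % nc M + k = nc M * (k / nc M + 1) := by
        rw [Nat.mul_add]; omega
      rw [h6, Nat.mul_mod_right]
    have hri1 : ∀ k, 1 ≤ ri (nc M) k := by
      intro k
      unfold ri
      have h4 := Nat.mod_lt k hK
      omega
    refine ⟨_, _, fun k => ri (nc M) k, fun k => ri (nc M) k - 1, false,
      ⟨⟨hR', fun k => h2 _⟩, g₀, hg, h3⟩, ?_⟩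
    intro k
    refine ⟨by simpa using hri k, ?_⟩
    have h5 := hri1 k
    rw [show ri (nc M) k - 1 + 1 + k = ri (nc M) k + k by omega]
    simpa using hri k

end col

/-! ### facts for one ring -/

namespace Rb

variable {hC : Col M X b Bl₁ Wh₁ Bl₂ Wh₂ s} {x₀ : X} {d : ℕ → Fc X b × ZMod 3}
  {P Q : ℕ → Set X} {γ ρ : ℕ → ℕ} (hr : Rb hC x₀ d P Q γ ρ)
include hr

theorem shift (j : ℕ) : Rb hC x₀ (fun k => d (j + k)) (fun k => P (j + k)) (fun k => Q (j + k))
    (fun k => γ (j + k)) (fun k => ρ (j + k)) where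
  ring := cring_shift hr.ring j
  foot k := hr.foot (j + k)

/-- The black sets are joined to the first foot. -/
theorem src_joined (k : ℕ) : H838.Joined (HT hC.hull x₀) (fun v => s v.1) true univ
    ((HT hC.hull x₀).src (d 0)) ((HT hC.hull x₀).src (d k)) := by
  induction k with
  | zero => exact H838.Joined.refl (mem_univ _) (hr.ring.colP 0 _ (hr.ring.s1 0))
  | succ k ih =>
    obtain ⟨l', h3, h4⟩ := hr.ring.pc k _ (hr.ring.s1 k) _ (hr.ring.s2 k)
    refine ih.trans ⟨mem_univ _, hr.ring.colP k _ (hr.ring.s1 k), l', h3, fun g hg => ?_⟩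
    exact ⟨⟨hr.ring.colP k _ (h4 g hg).1, mem_univ _⟩, ⟨hr.ring.colP k _ (h4 g hg).2, mem_univ _⟩⟩

theorem P_joined {k : ℕ} {v : X} (hv : v ∈ P k) :
    H838.Joined (HT hC.hull x₀) (fun v => s v.1) true univ ((HT hC.hull x₀).src (d 0)) v := by
  obtain ⟨l', h3, h4⟩ := hr.ring.pc k _ (hr.ring.s1 k) _ hv
  refine (hr.src_joined k).trans ⟨mem_univ _, hr.ring.colP k _ (hr.ring.s1 k), l', h3,
    fun g hg => ?_⟩
  exact ⟨⟨hr.ring.colP k _ (h4 g hg).1, mem_univ _⟩, ⟨hr.ring.colP k _ (h4 g hg).2, mem_univ _⟩⟩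

/-- A site joined in black to the first foot is not in an outer core. -/
theorem off_core {v : X} (hv : H838.Joined (HT hC.hull x₀) (fun v => s v.1) true univ
    ((HT hC.hull x₀).src (d 0)) v) (j : ℕ) : v.1 ∉ oco M X Bl₁ j := by
  intro h1
  obtain ⟨-, -, l, hl, hlc⟩ := hv.symm
  have key : ∀ {u w : X} {l : List (Fc X b × ZMod 3)}, (HT hC.hull x₀).Walk u w l →
      u.1 ∈ oco M X Bl₁ j → (∀ g ∈ l, s ((HT hC.hull x₀).tgt g : X) = true) →
      w.1 ∈ oco M X Bl₁ j := by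
    intro u w l hl hu hc
    induction hl with
    | nil v => exact hu
    | cons g w l hl ih =>
      refine ih ?_ (fun g' hg' => hc g' (List.mem_cons_of_mem _ hg'))
      exact hC.oco_step hu (HT_nbr hC.hull x₀ g) (hc g (by simp))
  exact Foot.src_oco hC (hr.foot 0) j (key hl h1 fun g hg => (hlc g hg).2.1)

/-- The black sets are off the exits. -/
theorem P_off {k : ℕ} {v : X} (hv : v ∈ P k) : v.1 ∉ Ps M X Bl₁ s := by
  rintro ⟨-, h1 | ⟨j, h1⟩ | h1⟩
  · have h2 : s v.1 = true := hr.ring.colP k v hv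
    rw [h1] at h2
    exact absurd h2 (by decide)
  · exact hr.off_core (hr.P_joined hv) j h1
  · have := (H959.reg_nsup hC.hM (hr.ring.subP k hv)).2
    linarith

/-- The white sets are explored (world 0). -/
theorem Q_sub {k : ℕ} {v : X} (hv : v ∈ Q k) : v.1 ∈ EK M X Bl₁ Wh₁ Bl₂ Wh₂ univ ∅ := by
  have h1 := Foot.tgt_mem hC (hr.foot k) (K := univ) (J := ∅) (Bl₂ := Bl₂) (Wh₂ := Wh₂) (by
    have := H678.outHub_sub_EJ (M := M) (X := X) (Bl := mB M X Bl₁ Wh₁ Bl₂)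
      (Wh := mW M X Bl₁ Wh₁ Wh₂) (K := univ) (J := ∅) (k := γ k) (mem_univ _)
    rwa [H678.outHub_mix] at this) (disjoint_empty _)
  obtain ⟨l, hl, hlm⟩ := hr.ring.qc k _ (hr.ring.t1 k) _ hv
  have h2 := (hC.clo x₀ univ ∅).walk hl h1 (fun g hg => by
    have h3 := (hlm g hg).2
    refine ⟨⟨⟨((HT hC.hull x₀).tgt g).2, ?_⟩, by simp⟩, hr.ring.colQ k _ h3⟩
    have := (H959.reg_nsup hC.hM (hr.ring.subQ k h3)).2
    have hms := ms_pos hC.hM
    linarith)
  exact h2.1.1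

end Rb

namespace Rg

variable {hC : Col M X b Bl₁ Wh₁ Bl₂ Wh₂ s} {x₀ : X} {d : ℕ → Fc X b × ZMod 3}
  {P Q : ℕ → Set X} {γ ρ : ℕ → ℕ} (hr : Rg hC x₀ d P Q γ ρ)
include hr

theorem shift (j : ℕ) : Rg hC x₀ (fun k => d (j + k)) (fun k => P (j + k)) (fun k => Q (j + k))
    (fun k => γ (j + k)) (fun k => ρ (j + k)) where
  toRb := hr.toRb.shift j
  pos := by
    obtain ⟨g₀, h1, h2⟩ := hr.pos
    exact ⟨g₀, h1, fun k => h2 (j + k)⟩

theorem loop : ∃ t, Loop (HT hC.hull x₀) (fun v => s v.1) (nc M) d (fun k => vs (reg M (ρ k))) t := by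
  have hfin := hC.hull.finite_Fc
  obtain ⟨g₀, h1, h2⟩ := hr.pos
  exact loop_of_cring (HT_planar hC.hull x₀) hr.ring h1 (h2 0)

end Rg

end Vale.Agent.P148.R2.H419
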