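import Vale.Agent.P148.R2.H419.Col6
import Vale.Agent.P148.R2.H995.Jreg
import Vale.Agent.P148.R2.H565.Vk

/-!
# P148, row W1: far pieces of the closed strand are explored

`Col.far_of` : the vertices seen by a portion of the strand in regions off `J`, which starts at the foot
of an explored gate, are in `EK K J`; the right ones are joined in white to the foot.
`Col.seen_EK` : one piece.  `Col.rb` : the facts of world 0 without rings.
-/

set_option linter.unusedSectionVars false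

open Set Relation Metric Function

namespace Vale.Agent.P148.R2.H419

open Vale.Agent.P148.R2.H258 Vale.Agent.P148.R2.H565
open Vale.Agent.P148.R2.N (ms nc gateC gbox cell csq ms_pos)
open Vale.Agent.P148.R2.H592 (HullTri nbr nbr_symm ConnIn Fc idmap fib_id tail head vc Three comp)
open Vale.Agent.P148.R2.H959 (Jn reg)
open Vale.Agent.P148.R2.H678 (core hub pin pout sd CBox CCr InGood OutGood Tooth Rails Rad inHub
  outHub inRim outRim hbox uo HubsGood Ex mix mB mW EJ D0 oseed rd RD)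
open Vale.Agent.P148.R2.H995 (nsup Pieces)

variable {M : ℕ} {X : Set ℂ} {b : ZMod 3 → ℂ} {Bl₁ Wh₁ Bl₂ Wh₂ : Set ℂ} {s : ℂ → Bool}

section col

variable (hC : Col M X b Bl₁ Wh₁ Bl₂ Wh₂ s)
include hC

/-- The hub of an explored gate. -/
theorem Col.hub_sub {K : Set ℕ} {k : ℕ} (hk : ∃ j ∈ K, j % nc M = k % nc M) (J : Set ℂ) :
    outHub M X Bl₁ k ⊆ EK M X Bl₁ Wh₁ Bl₂ Wh₂ K J := by
  obtain ⟨j, hj, hjk⟩ := hk
  have h1 := H678.outHub_sub_EJ (M := M) (X := X) (Bl := mB M X Bl₁ Wh₁ Bl₂)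
    (Wh := mW M X Bl₁ Wh₁ Wh₂) (J := J) hj
  rw [H678.outHub_mix] at h1
  have h2 : outHub M X Bl₁ k = outHub M X Bl₁ j := by
    unfold outHub
    rw [← H995.pout_mod M k, ← hjk, H995.pout_mod]
  rw [h2]
  exact h1

theorem Col.reg_D0 {k : ℕ} {J : Set ℂ} (hJ : Disjoint (reg M k) J) :
    (vs (reg M k) : Set X) ⊆ vs (D0 M X \ J) := by
  intro v hv
  have := (H959.reg_nsup hC.hM hv).2
  have hms := ms_pos hC.hM
  exact ⟨⟨v.2, by linarith⟩, Set.disjoint_left.1 hJ hv⟩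

/-- The black sites of the composite colouring have the same outer hubs. -/
theorem Col.outHub_blk (k : ℕ) :
    outHub M X {z | z ∈ X ∧ s z = true} k = outHub M X Bl₁ k := by
  have h1 := H678.outHub_mix (M := M) (X := X) (Bl₁ := Bl₁) (Wh₁ := Wh₁) (Bl₂ := Bl₂) k
  rw [← h1]
  refine H678.hub_congr fun v hv => ?_
  have hv2 : v ∈ X := H678.hub_sub_X hv
  rw [hC.cB v hv2]
  exact ⟨fun h => h.2, fun h => ⟨hv2, h⟩⟩

/-- The right vertex of a foot (plane form) of an explored gate is explored and white. -/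
theorem Col.tgt_foot {k : ℕ} {a : ℂ × ℂ} (ha : H565.Foot M X {z | z ∈ X ∧ s z = true} k a)
    {K : Set ℕ} {J : Set ℂ} (hk : outHub M X Bl₁ k ⊆ EK M X Bl₁ Wh₁ Bl₂ Wh₂ K J)
    (hJ : Disjoint (gbox M k) J) :
    a.2 ∈ EK M X Bl₁ Wh₁ Bl₂ Wh₂ K J ∧ s a.2 = false ∧ a.1 ∈ gbox M k ∧ a.2 ∈ gbox M k := by
  obtain ⟨n, v, h0, h1, h2, h3, h4, h5, h6, h7⟩ := ha
  have hms := ms_pos hC.hM
  have hX : ∀ i, 0 < i → i ≤ n → v i ∈ X := by
    intro i hi hin
    have := (h1 (i - 1) (by omega)).2.1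
    rwa [show i - 1 + 1 = i by omega] at this
  have key : ∀ m, m < n → v (n - m) ∈ EK M X Bl₁ Wh₁ Bl₂ Wh₂ K J ∧ s (v (n - m)) = false := by
    intro m
    induction m with
    | zero =>
      intro _
      rw [Nat.sub_zero]
      have g1 : v n ∈ outHub M X {z | z ∈ X ∧ s z = true} k := h5.1
      rw [hC.outHub_blk] at g1
      refine ⟨hk g1, ?_⟩
      have g2 : v n ∉ {z | z ∈ X ∧ s z = true} := H678.rim_not h5
      by_contra hc
      exact g2 ⟨hX n h0 le_rfl, by revert hc; cases s (v n) <;> simp⟩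
    | succ m ih =>
      intro hm
      obtain ⟨g1, g2⟩ := ih (by omega)
      have g3 : nbr X (v (n - (m + 1))) (v (n - m)) := by
        have := h1 (n - (m + 1)) (by omega)
        rwa [show n - (m + 1) + 1 = n - m by omega] at this
      have g4 := h7 (n - (m + 1)) (by omega)
      have g5 := (H678.gbox_nsup hC.hM g4).2
      refine ⟨H678.EJ_step g1 ((hC.cW _ g3.2.1).2 g2) (nbr_symm g3) (by linarith)
        (Set.disjoint_left.1 hJ g4), ?_⟩
      have g6 := (h6 (n - (m + 1)) (by omega) (by omega)).1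
      by_contra hc
      exact g6 ⟨g3.1, by revert hc; cases s (v (n - (m + 1))) <;> simp⟩
  have h8 := key (n - 1) (by omega)
  rw [show n - (n - 1) = 1 by omega, h3] at h8
  exact ⟨h8.1, h8.2, by rw [← h2]; exact h7 0 (Nat.zero_le n), by rw [← h3]; exact h7 1 h0⟩

/-- **Far pieces.**  A portion of a strand in regions off `J`, which starts at an explored white
right vertex. -/
theorem Col.far_of (x₀ : X) {o : Fc X b × ZMod 3} (hb : (HT hC.hull x₀).Bi (fun v => s v.1) o)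
    {K : Set ℕ} {J : Set ℂ} {t : ℕ → ℕ} {m m' : ℕ} (hmm : m < m')
    (h0 : (((HT hC.hull x₀).tgt (((HT hC.hull x₀).st fun v => s v.1)^[t m] o) : X) : ℂ) ∈
      EK M X Bl₁ Wh₁ Bl₂ Wh₂ K J)
    (h0' : s ((HT hC.hull x₀).tgt (((HT hC.hull x₀).st fun v => s v.1)^[t m] o) : X) = false)
    (h1 : (((HT hC.hull x₀).src (((HT hC.hull x₀).st fun v => s v.1)^[t m'] o) : X) : ℂ) ∈
        gbox M m' ∧
      (((HT hC.hull x₀).tgt (((HT hC.hull x₀).st fun v => s v.1)^[t m'] o) : X) : ℂ) ∈ gbox M m')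
    (seen : ∀ k, m ≤ k → k < m' → ∀ i, t k ≤ i → i < t (k + 1) →
      (((HT hC.hull x₀).src (((HT hC.hull x₀).st fun v => s v.1)^[i] o) : X) : ℂ) ∈ reg M k ∧
      (((HT hC.hull x₀).tgt (((HT hC.hull x₀).st fun v => s v.1)^[i] o) : X) : ℂ) ∈ reg M k)
    (hJ : ∀ k, m ≤ k → k < m' → Disjoint (reg M k) J) {i : ℕ} (hi : t m ≤ i) (hi' : i ≤ t m') :
    (HT hC.hull x₀).tgt (((HT hC.hull x₀).st fun v => s v.1)^[i] o) ∈
        vs {z | z ∈ EK M X Bl₁ Wh₁ Bl₂ Wh₂ K J ∧ s z = false} ∧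
      (HT hC.hull x₀).src (((HT hC.hull x₀).st fun v => s v.1)^[i] o) ∈
        vs (EK M X Bl₁ Wh₁ Bl₂ Wh₂ K J) ∧
      H838.Joined (HT hC.hull x₀) (fun v => s v.1) false
        (vs {z | z ∈ EK M X Bl₁ Wh₁ Bl₂ Wh₂ K J ∧ s z = false})
        ((HT hC.hull x₀).tgt (((HT hC.hull x₀).st fun v => s v.1)^[t m] o))
        ((HT hC.hull x₀).tgt (((HT hC.hull x₀).st fun v => s v.1)^[i] o)) := by
  have hw : (fun v : X => s v.1) ((HT hC.hull x₀).tgt o) = false := by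
    have h2 := (HT hC.hull x₀).col_tgt_iter (fun v : X => s v.1) o (t m)
    exact h2.symm.trans h0'
  refine (hC.clo x₀ K J).hug hb hw (i₀ := t m) (i₁ := t m') (fun j hj hj' => ?_) ⟨h0, h0'⟩ i hi hi'
  rcases hj'.lt_or_eq with h2 | h2
  · -- the piece of `j`
    have hex : ∃ k, m ≤ k ∧ k < m' ∧ t k ≤ j ∧ j < t (k + 1) := by
      by_contra hc
      push Not at hc
      have : ∀ k, m ≤ k → k ≤ m' → t k ≤ j := by
        intro k hk
        induction k, hk using Nat.le_induction with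
        | base => exact fun _ => hj
        | succ k hk ih => exact fun hk' => hc k hk (by omega) (ih (by omega))
      have := this m' hmm.le le_rfl
      omega
    obtain ⟨k, a1, a2, a3, a4⟩ := hex
    obtain ⟨a5, a6⟩ := seen k a1 a2 j a3 a4
    exact ⟨hC.reg_D0 (hJ k a1 a2) a5, hC.reg_D0 (hJ k a1 a2) a6⟩
  · have h3 : gbox M m' ⊆ reg M (m' - 1) := by
      have := H959.gbox_succ_subset_reg hC.hM (m' - 1)
      rwa [show m' - 1 + 1 = m' by omega] at this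
    have h4 := hJ (m' - 1) (by omega) (by omega)
    rw [h2]
    exact ⟨hC.reg_D0 h4 (h3 h1.1), hC.reg_D0 h4 (h3 h1.2)⟩

end col

/-! ### the facts of world 0, without rings -/

section w0

variable (hC : Col M X b Bl₁ Wh₁ Bl₂ Wh₂ s)
include hC

theorem Col.rb : ∃ (x₀ : X) (d : ℕ → Fc X b × ZMod 3) (P Q : ℕ → Set X),
    Rb hC x₀ d P Q (fun k => k) (fun k => k) := by
  obtain ⟨d, P, Q, h, -⟩ := hC.exists_rg ⟨b 0, hC.hull.mem 0⟩
  exact ⟨_, d, P, Q, h⟩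

/-- (1) The explored set is outside the black ring. -/
theorem Col.E0_nsup {z : ℂ} (hz : z ∈ E0 M X Bl₁ Wh₁ Bl₂ Wh₂) : 1 - ms M / 8 < nsup z := by
  obtain ⟨x₀, d, P, Q, h⟩ := hC.rb
  exact h.E0_nsup hz

theorem Col.EK_nsup {K : Set ℕ} {J : Set ℂ} {z : ℂ} (hz : z ∈ EK M X Bl₁ Wh₁ Bl₂ Wh₂ K J) :
    1 - ms M / 8 < nsup z := hC.E0_nsup (EK_sub_E0 K J hz)

/-- (2) The fresh region is inside the white ring. -/
theorem Col.I0_nsup {i₀ : ℂ} (h0 : nsup i₀ ≤ 1 - ms M / 8) {z : ℂ}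
    (hz : z ∈ I0 M X Bl₁ Wh₁ Bl₂ Wh₂ i₀) : nsup z < 1 + 5 * ms M / 8 := by
  obtain ⟨x₀, d, P, Q, h⟩ := hC.rb
  exact h.I0_nsup h0 hz

/-- (3) The frozen set is connected. -/
theorem Col.conn_B (i₀ : ℂ) : ConnIn X (X \ I0 M X Bl₁ Wh₁ Bl₂ Wh₂ i₀) := by
  obtain ⟨x₀, d, P, Q, h⟩ := hC.rb
  exact h.conn_B i₀

theorem Col.E0_nonempty : (E0 M X Bl₁ Wh₁ Bl₂ Wh₂).Nonempty := by
  obtain ⟨x₀, d, P, Q, h⟩ := hC.rb
  exact h.E0_nonempty

/-- (5) A disc inside the black ring is fresh. -/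
theorem Col.ball_sub {r : ℝ} (hr1 : r ≤ 1 - ms M / 8) {i₀ : ℂ} (hi : i₀ ∈ X ∩ ball 0 r) :
    X ∩ ball 0 r ⊆ I0 M X Bl₁ Wh₁ Bl₂ Wh₂ i₀ := by
  obtain ⟨x₀, d, P, Q, h⟩ := hC.rb
  exact h.ball_sub hr1 hi

/-- (4) The frozen neighbours of fresh sites are explored and black. -/
theorem Col.bdry' {i₀ u v : ℂ} (h0 : nsup i₀ ≤ 1 - ms M / 8)
    (hu : u ∈ I0 M X Bl₁ Wh₁ Bl₂ Wh₂ i₀) (h : nbr X u v)
    (hv : v ∉ I0 M X Bl₁ Wh₁ Bl₂ Wh₂ i₀) : v ∈ E0 M X Bl₁ Wh₁ Bl₂ Wh₂ ∧ s v = true := by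
  refine hC.bdry hu h hv ?_
  have := hC.I0_nsup h0 hu
  have := ms_pos hC.hM
  linarith

/-- White explored sites have no fresh neighbours. -/
theorem Col.white_adj {i₀ u v : ℂ} (h0 : nsup i₀ ≤ 1 - ms M / 8)
    (hu : u ∈ E0 M X Bl₁ Wh₁ Bl₂ Wh₂) (hw : s u = false) (h : nbr X u v) :
    v ∈ X \ I0 M X Bl₁ Wh₁ Bl₂ Wh₂ i₀ := by
  refine ⟨h.2.1, fun hv => ?_⟩
  have h1 : u ∉ I0 M X Bl₁ Wh₁ Bl₂ Wh₂ i₀ := fun hc => (H592.comp_subset _ _ _ hc).2 hu
  have h2 := (hC.bdry' h0 hv (nbr_symm h) h1).2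
  rw [hw] at h2
  exact absurd h2 (by decide)

end w0

end Vale.Agent.P148.R2.H419
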