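import Vale.Agent.P148.R2.H419.Col8
import Vale.Agent.P148.R2.H592.Wld
import Vale.Agent.P148.R2.H678.Br

/-!
# P148, row W1: the facts `WFacts` of helper592 for world 0 of the comb
-/

set_option linter.unusedSectionVars false

open Set Relation Metric Function

namespace Vale.Agent.P148.R2.H419

open Vale.Agent.P148.R2.N (ms nc ms_pos)
open Vale.Agent.P148.R2.H592 (HullTri nbr WFacts)
open Vale.Agent.P148.R2.H678 (cw WC fr ctr E0X bw wrd wd sgX)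
open Vale.Agent.P148.R2.H172 (cs combLaw)
open Vale.Agent.P148.R2.H995 (nsup)

variable {M : ℕ} {X : Set ℂ} {b : ZMod 3 → ℂ} {Bl₁ Wh₁ Bl₂ Wh₂ : Set ℂ} {s : ℂ → Bool}

/-- `WFacts` for world 0. -/
theorem Col.wfacts (hC : Col M X b Bl₁ Wh₁ Bl₂ Wh₂ s) (hM2 : 2 ≤ M) {i₀ : ℂ}
    (hn : nsup i₀ ≤ 1 - ms M / 8) (hi : i₀ ∈ X ∩ ball 0 (1 - ms M / 8)) :
    WFacts (ms M) X (E0 M X Bl₁ Wh₁ Bl₂ Wh₂) (I0 M X Bl₁ Wh₁ Bl₂ Wh₂ i₀) s where
  a0 := ms_pos hC.hM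
  a1 := by
    have h1 := N.M_mul_ms hC.hM
    have h2 : (2 : ℝ) ≤ M := by exact_mod_cast hM2
    have h3 := ms_pos hC.hM
    nlinarith
  sub z hz := (H592.comp_subset _ _ _ hz).1
  near z hz := hC.I0_nsup hn hz
  conn := hC.conn_B i₀
  ne := by
    refine ⟨b 0, hC.hull.mem 0, fun h => ?_⟩
    have h1 := hC.I0_nsup hn h
    have h2 := hC.far 0
    have h3 := ms_pos hC.hM
    linarith
  bdry u hu v huv hv := hC.bdry' hn hu huv hv
  core := hC.ball_sub le_rfl hi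

theorem wfacts_congr {a : ℝ} {E I : Set ℂ} {sg sg' : ℂ → Bool} (h : WFacts a X E I sg)
    (hs : ∀ v ∈ X, sg' v = sg v) : WFacts a X E I sg' where
  a0 := h.a0
  a1 := h.a1
  sub := h.sub
  near := h.near
  conn := h.conn
  ne := h.ne
  bdry u hu v huv hv := by
    obtain ⟨h1, h2⟩ := h.bdry u hu v huv hv
    exact ⟨h1, by rw [hs v huv.2.1]; exact h2⟩
  core := h.core

/-- **`WFacts` for two colourings of the good event.** -/
theorem wfacts_of_A0 [Fintype X] (hM : 0 < M) (hM2 : 2 ≤ M) {c₁ c₂ : X → Bool} (h : HullTri X b)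
    (hfar : ∀ j, 1 + 2 * ms M ≤ nsup (b j))
    (hA : (combLaw hM X (Subtype.val : X → ℂ)).A0 c₁ c₂) (hX : (X ∩ ball (0 : ℂ) (1 / 2)).Nonempty) :
    WFacts (ms M) X (E0X M X (cw M c₁ c₂)) (fr X (E0X M X (cw M c₁ c₂))) (sgX X (cw M c₁ c₂)) ∧
      (wd h M (cw M c₁ c₂)).B = X \ fr X (E0X M X (cw M c₁ c₂)) := by
  have hC := H678.col_of_A0 hM h hfar hA
  have hms : ms M ≤ 1 := N.ms_le_one
  have hi : ctr X ∈ X ∩ ball 0 (1 - ms M / 8) := by
    have h1 := H678.ctr_mem hX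
    refine ⟨h1.1, ball_subset_ball (by linarith) h1.2⟩
  have h1 := hC.wfacts hM2 (H678.ctr_nsup hX M) hi
  have h2 := H678.wc_of_col hC hX
  rw [← H678.E0X_eq] at h1 h2
  refine ⟨wfacts_congr (sg := cs Subtype.val (cw M c₁ c₂)) ?_ (fun v hv => ?_),
    H678.bw_of_WC h2⟩
  · have h3 : fr X (E0X M X (cw M c₁ c₂)) = I0 M X (H938.pc Subtype.val true c₁)
        (H938.pc Subtype.val false c₁) (H938.pc Subtype.val true c₂)
        (H938.pc Subtype.val false c₂) (ctr X) := by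
      rw [H678.E0X_eq]; rfl
    rw [h3]
    exact h1
  · rw [H678.sgX_eq _ hv]
    exact (H678.cs_val (cw M c₁ c₂) ⟨v, hv⟩).symm

end Vale.Agent.P148.R2.H419
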