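import Vale.Agent.P148.R2.H838.X2

/-!
# P148, row PLANE: flips of explored pieces

* `flipB A1 A2` flips the colours on `A2 σ \ A1 σ` (nested stopping sets): measure preserving;
* `white_bridge` : after the flip, the flipped stretch of one side of the strand is joined to the
  unflipped part of the other side.
-/

namespace Vale.Agent.P148.R2.H419

open Function Vale.Agent.P148.R2.H258 Vale.Agent.P148.R2.H258.Tri Vale.Agent.P148.R2.H838

section flip

variable {V : Type*}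

open Classical in
/-- Flip the colours off `A`. -/
noncomputable def flipC (A : Set V) (σ : V → Bool) : V → Bool :=
  fun v => if v ∈ A then σ v else !σ v

open Classical in
/-- Flip the colours on `B \ A`. -/
noncomputable def flipD (A B : Set V) (σ : V → Bool) : V → Bool :=
  fun v => if v ∈ B ∧ v ∉ A then !σ v else σ v

theorem flipD_in {A B : Set V} {σ : V → Bool} {v : V} (h : v ∈ B) (h2 : v ∉ A) :
    flipD A B σ v = !σ v := by simp [flipD, h, h2]

theorem flipD_old {A B : Set V} {σ : V → Bool} {v : V} (h : v ∈ A) :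
    flipD A B σ v = σ v := by simp [flipD, h]

theorem flipD_off {A B : Set V} {σ : V → Bool} {v : V} (h : v ∉ B) :
    flipD A B σ v = σ v := by simp [flipD, h]

theorem flipC_mem {A : Set V} {σ : V → Bool} {v : V} (h : v ∈ A) : flipC A σ v = σ v := by
  simp [flipC, h]

theorem flipC_not {A : Set V} {σ : V → Bool} {v : V} (h : v ∉ A) : flipC A σ v = !σ v := by
  simp [flipC, h]

/-- `A` is a stopping set (same as `H532.IsStop`). -/
def Stop (A : (V → Bool) → Set V) : Prop :=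
  ∀ σ σ' : V → Bool, (∀ v ∈ A σ, σ' v = σ v) → A σ' = A σ

theorem Stop.flipC {A : (V → Bool) → Set V} (hA : Stop A) (σ : V → Bool) :
    A (flipC (A σ) σ) = A σ := hA _ _ fun _ hv => flipC_mem hv

theorem Stop.flipD {A : (V → Bool) → Set V} (hA : Stop A) (B : Set V) (σ : V → Bool) :
    A (flipD (A σ) B σ) = A σ := hA _ _ fun _ hv => flipD_old hv

theorem Stop.flipC_flipC {A : (V → Bool) → Set V} (hA : Stop A) (σ : V → Bool) :
    H419.flipC (A (H419.flipC (A σ) σ)) (H419.flipC (A σ) σ) = σ := by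
  rw [hA.flipC]
  funext v
  by_cases h : v ∈ A σ
  · rw [flipC_mem h, flipC_mem h]
  · rw [flipC_not h, flipC_not h, Bool.not_not]

/-- The flip of `A2 \ A1` is the composition of two involutions. -/
theorem flipD_eq {A1 A2 : (V → Bool) → Set V} (h1 : Stop A1) (hsub : ∀ σ, A1 σ ⊆ A2 σ)
    (σ : V → Bool) :
    flipD (A1 σ) (A2 σ) σ =
      flipC (A1 (flipC (A2 σ) σ)) (flipC (A2 σ) σ) := by
  have e : A1 (flipC (A2 σ) σ) = A1 σ := h1 _ _ fun v hv => flipC_mem (hsub σ hv)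
  rw [e]
  funext v
  by_cases h : v ∈ A1 σ
  · rw [flipC_mem h, flipC_mem (hsub σ h), flipD_old h]
  · rw [flipC_not h]
    by_cases h' : v ∈ A2 σ
    · rw [flipD_in h' h, flipC_mem h']
    · rw [flipD_off h', flipC_not h', Bool.not_not]

open Classical in
/-- **(P1)** The flip of the piece explored between two nested stopping sets preserves the fair
measure on colourings. -/
theorem sum_flipD [Fintype V] {M : Type*} [AddCommMonoid M] {A1 A2 : (V → Bool) → Set V}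
    (h1 : Stop A1) (h2 : Stop A2) (hsub : ∀ σ, A1 σ ⊆ A2 σ) (f : (V → Bool) → M) :
    ∑ σ : V → Bool, f (flipD (A1 σ) (A2 σ) σ) = ∑ σ : V → Bool, f σ := by
  have i1 : Function.Involutive fun σ : V → Bool => flipC (A1 σ) σ := h1.flipC_flipC
  have i2 : Function.Involutive fun σ : V → Bool => flipC (A2 σ) σ := h2.flipC_flipC
  have e : ∀ σ : V → Bool, flipD (A1 σ) (A2 σ) σ = i1.toPerm _ (i2.toPerm _ σ) :=
    fun σ => flipD_eq h1 hsub σ
  simp only [e]
  rw [Equiv.sum_comp i2.toPerm (fun σ => f (i1.toPerm _ σ)), Equiv.sum_comp i1.toPerm f]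

open Classical in
/-- The flip is a bijection. -/
theorem flipD_bijective [Fintype V] {A1 A2 : (V → Bool) → Set V}
    (h1 : Stop A1) (h2 : Stop A2) (hsub : ∀ σ, A1 σ ⊆ A2 σ) :
    Bijective fun σ : V → Bool => flipD (A1 σ) (A2 σ) σ := by
  have i1 : Function.Involutive fun σ : V → Bool => flipC (A1 σ) σ := h1.flipC_flipC
  have i2 : Function.Involutive fun σ : V → Bool => flipC (A2 σ) σ := h2.flipC_flipC
  have e : (fun σ : V → Bool => flipD (A1 σ) (A2 σ) σ) =
      (fun σ : V → Bool => flipC (A1 σ) σ) ∘ fun σ : V → Bool => flipC (A2 σ) σ := by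
    funext σ
    exact flipD_eq h1 hsub σ
  rw [e]
  exact i1.bijective.comp i2.bijective

end flip

section bridge

variable {V D : Type*} {T : Tri V D}

/-- The left side of a strand, between two times, as a walk. -/
theorem left_walk {σ : V → Bool} {d : D} (hb : T.Bi σ d) (k m : ℕ) :
    ∃ l, T.Walk (T.src ((T.st σ)^[k + m] d)) (T.src ((T.st σ)^[k] d)) l ∧
      ∀ g ∈ l, (∃ i, k ≤ i ∧ i ≤ k + m ∧ T.src g = T.src ((T.st σ)^[i] d)) ∧
        ∃ i, k ≤ i ∧ i ≤ k + m ∧ T.tgt g = T.src ((T.st σ)^[i] d) := by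
  induction m with
  | zero => exact ⟨[], Walk.nil _, by simp⟩
  | succ m ih =>
    obtain ⟨l, hl, hm⟩ := ih
    have hm' : ∀ g ∈ l, (∃ i, k ≤ i ∧ i ≤ k + (m + 1) ∧ T.src g = T.src ((T.st σ)^[i] d)) ∧
        ∃ i, k ≤ i ∧ i ≤ k + (m + 1) ∧ T.tgt g = T.src ((T.st σ)^[i] d) := by
      intro g hg
      obtain ⟨⟨i, h1, h2, h3⟩, j, h4, h5, h6⟩ := hm g hg
      exact ⟨⟨i, h1, by omega, h3⟩, j, h4, by omega, h6⟩
    rcases left_adj hb (k + m) with h | ⟨g, h1, h2⟩
    · refine ⟨l, ?_, hm'⟩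
      rw [← add_assoc, h]
      exact hl
    · refine ⟨g :: l, Walk.cons' g h1 (by rw [h2]; exact hl), ?_⟩
      intro e he
      rcases List.mem_cons.1 he with rfl | he
      · exact ⟨⟨k + m + 1, by omega, by omega, h1⟩, k + m, by omega, by omega, h2⟩
      · exact hm' e he

/-- The right side of a strand, between two times, as a walk. -/
theorem right_walk {σ : V → Bool} {d : D} (hb : T.Bi σ d) (k m : ℕ) :
    ∃ l, T.Walk (T.tgt ((T.st σ)^[k + m] d)) (T.tgt ((T.st σ)^[k] d)) l ∧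
      ∀ g ∈ l, (∃ i, k ≤ i ∧ i ≤ k + m ∧ T.src g = T.tgt ((T.st σ)^[i] d)) ∧
        ∃ i, k ≤ i ∧ i ≤ k + m ∧ T.tgt g = T.tgt ((T.st σ)^[i] d) := by
  induction m with
  | zero => exact ⟨[], Walk.nil _, by simp⟩
  | succ m ih =>
    obtain ⟨l, hl, hm⟩ := ih
    have hm' : ∀ g ∈ l, (∃ i, k ≤ i ∧ i ≤ k + (m + 1) ∧ T.src g = T.tgt ((T.st σ)^[i] d)) ∧
        ∃ i, k ≤ i ∧ i ≤ k + (m + 1) ∧ T.tgt g = T.tgt ((T.st σ)^[i] d) := by
      intro g hg
      obtain ⟨⟨i, h1, h2, h3⟩, j, h4, h5, h6⟩ := hm g hg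
      exact ⟨⟨i, h1, by omega, h3⟩, j, h4, by omega, h6⟩
    rcases right_adj hb (k + m) with h | ⟨g, h1, h2⟩
    · refine ⟨l, ?_, hm'⟩
      rw [← add_assoc, h]
      exact hl
    · refine ⟨g :: l, Walk.cons' g h1 (by rw [h2]; exact hl), ?_⟩
      intro e he
      rcases List.mem_cons.1 he with rfl | he
      · exact ⟨⟨k + m + 1, by omega, by omega, h1⟩, k + m, by omega, by omega, h2⟩
      · exact hm' e he

/-- A monochromatic walk of colour `c`. -/
def MWalk (T : Tri V D) (σ : V → Bool) (c : Bool) (u v : V) : Prop :=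
  ∃ l, T.Walk u v l ∧ ∀ g ∈ l, σ (T.src g) = c ∧ σ (T.tgt g) = c

theorem MWalk.refl (σ : V → Bool) (c : Bool) (u : V) : MWalk T σ c u u := ⟨[], Walk.nil _, by simp⟩

theorem MWalk.trans {σ : V → Bool} {c : Bool} {u v w : V} (h : MWalk T σ c u v)
    (h' : MWalk T σ c v w) : MWalk T σ c u w := by
  obtain ⟨l, h1, h2⟩ := h
  obtain ⟨l', h3, h4⟩ := h'
  refine ⟨l ++ l', h1.append h3, ?_⟩
  intro g hg
  rcases List.mem_append.1 hg with hg | hg
  · exact h2 g hg
  · exact h4 g hg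

theorem MWalk.symm {σ : V → Bool} {c : Bool} {u v : V} (h : MWalk T σ c u v) :
    MWalk T σ c v u := by
  obtain ⟨l, h1, h2⟩ := h
  refine ⟨_, h1.reverse, ?_⟩
  intro g hg
  rw [List.mem_reverse, List.mem_map] at hg
  obtain ⟨e, he, rfl⟩ := hg
  rw [T.src_rev, T.tgt_rev]
  exact ⟨(h2 e he).2, (h2 e he).1⟩

theorem MWalk.dart {σ : V → Bool} {c : Bool} {g : D} (h1 : σ (T.src g) = c)
    (h2 : σ (T.tgt g) = c) : MWalk T σ c (T.src g) (T.tgt g) :=
  ⟨[g], Walk.single g, by simpa using ⟨h1, h2⟩⟩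

theorem MWalk.joined {σ : V → Bool} {c : Bool} {u v : V} {F : Set V} (h : Joined T σ c F u v) :
    MWalk T σ c u v := by
  obtain ⟨-, -, l, h1, h2⟩ := h
  exact ⟨l, h1, fun g hg => ⟨(h2 g hg).1.1, (h2 g hg).2.1⟩⟩

/-- **(P2)** `σ'` : another colouring (`σ` with the colours flipped on `B \ A`).  If at time `k` the
right vertex of the strand is in `A`, the left vertices at the times `k, ..., k2` are in `B \ A`, and
the right vertices at the times `t1 ≤ .. ≤ t2` are in `A`, then `σ'` has a walk of the minority colour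
from every left vertex at the times `k, ..., k2` to every right vertex at the times `t1, .., t2`,
provided the right vertex at time `k` is one of them. -/
theorem bridge {σ : V → Bool} {d : D} (hb : T.Bi σ d) {A B : Set V} {k k2 t1 t2 t : ℕ}
    (hkE : T.tgt ((T.st σ)^[k] d) ∈ A)
    (hx : ∀ i, k ≤ i → i ≤ k2 → T.src ((T.st σ)^[i] d) ∈ B ∧ T.src ((T.st σ)^[i] d) ∉ A)
    (hy : ∀ i, t1 ≤ i → i ≤ t2 → T.tgt ((T.st σ)^[i] d) ∈ A)
    (ht1 : t1 ≤ t) (ht2 : t ≤ t2) (hk : T.tgt ((T.st σ)^[k] d) = T.tgt ((T.st σ)^[t] d))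
    {i j : ℕ} (hi1 : k ≤ i) (hi2 : i ≤ k2) (hj1 : t1 ≤ j) (hj2 : j ≤ t2) :
    MWalk T (flipD A B σ) (σ (T.tgt d)) (T.src ((T.st σ)^[i] d)) (T.tgt ((T.st σ)^[j] d)) := by
  have hcx : ∀ i, k ≤ i → i ≤ k2 → flipD A B σ (T.src ((T.st σ)^[i] d)) = σ (T.tgt d) := by
    intro i h1 h2
    rw [flipD_in (hx i h1 h2).1 (hx i h1 h2).2, T.col_src_iter σ]
    have : σ (T.src d) ≠ σ (T.tgt d) := hb
    revert this
    cases σ (T.src d) <;> cases σ (T.tgt d) <;> simp
  have hcy : ∀ j, t1 ≤ j → j ≤ t2 → flipD A B σ (T.tgt ((T.st σ)^[j] d)) = σ (T.tgt d) := by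
    intro j h1 h2
    rw [flipD_old (hy j h1 h2), T.col_tgt_iter σ]
  -- from `x_i` to `x_k`
  have w1 : MWalk T (flipD A B σ) (σ (T.tgt d)) (T.src ((T.st σ)^[i] d))
      (T.src ((T.st σ)^[k] d)) := by
    obtain ⟨m, rfl⟩ := Nat.exists_eq_add_of_le hi1
    obtain ⟨l, hl, hm⟩ := left_walk hb k m
    refine ⟨l, hl, ?_⟩
    intro g hg
    obtain ⟨⟨i, h1, h2, h3⟩, j, h4, h5, h6⟩ := hm g hg
    rw [h3, h6]
    exact ⟨hcx i h1 (by omega), hcx j h4 (by omega)⟩
  -- the edge `x_k y_k`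
  have w2 : MWalk T (flipD A B σ) (σ (T.tgt d)) (T.src ((T.st σ)^[k] d))
      (T.tgt ((T.st σ)^[k] d)) := by
    apply MWalk.dart (hcx k le_rfl (by omega))
    rw [flipD_old hkE, T.col_tgt_iter σ]
  -- from `y_k = y_t` to `y_j`
  have w3 : ∀ j, t1 ≤ j → j ≤ t2 → ∀ j', t1 ≤ j' → j' ≤ t2 → j' ≤ j →
      MWalk T (flipD A B σ) (σ (T.tgt d)) (T.tgt ((T.st σ)^[j] d)) (T.tgt ((T.st σ)^[j'] d)) := by
    intro j h1 h2 j' h3 h4 h5
    obtain ⟨m, rfl⟩ := Nat.exists_eq_add_of_le h5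
    obtain ⟨l, hl, hm⟩ := right_walk hb j' m
    refine ⟨l, hl, ?_⟩
    intro g hg
    obtain ⟨⟨i, h1, h2, h3⟩, j, h4, h5, h6⟩ := hm g hg
    rw [h3, h6]
    exact ⟨hcy i (by omega) (by omega), hcy j (by omega) (by omega)⟩
  refine w1.trans (w2.trans ?_)
  rw [hk]
  rcases le_total j t with h | h
  · exact w3 t ht1 ht2 j hj1 hj2 h
  · exact (w3 j hj1 hj2 t ht1 ht2 h).symm

end bridge

end Vale.Agent.P148.R2.H419
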